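import Vale.Agent.P054.T3.H854.EndZ
import Vale.Agent.P054.T3.H637.Lossy

set_option autoImplicit false
set_option linter.all false

/-!
# P054 / T3: top.  Everything from `MainIneqZ n`, the output of the assembly in dimension `n + 1`
-/

namespace Vale.Agent.P054.T3.H854

open Vale.Agent.P054I Vale.Agent.P054K

/-- the lossless bound in all dimensions `d ≥ 4` from `MainIneqZ n`, `n ≥ 3` -/
theorem lbd_of_mainIneqZ (h : ∀ n : ℕ, 3 ≤ n → MainIneqZ n) (d : ℕ) (hd : 4 ≤ d) : LBd d :=
  lbd_of_steps (fun m hm => Vale.Agent.P054.T3.H637.sex_all m hm)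
    (fun n hn => stepL_of_mainIneqZ (h n hn)) d hd

/-- the lossless bound in dimension `3` from `StepL 2` -/
theorem lbd_three (h : StepL 2) : LBd 3 :=
  lbd_of_step (n := 2) (by omega) (fun m hm => Vale.Agent.P054.T3.H637.sex_all m hm)
    (fun σ hσ hσn => by omega) h

/-- **top**, all dimensions `d ≥ 4` -/
theorem txt_four (h : ∀ n : ℕ, 3 ≤ n → MainIneqZ n) (d : ℕ) (hd : 4 ≤ d) : Txt g d :=
  txt_of_LBd (by omega) (lbd_of_mainIneqZ h d hd)

/-- **top**, dimension `3` -/
theorem txt_three (h : StepL 2) : Txt g 3 := txt_of_LBd (by omega) (lbd_three h)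

/-- **top**, all dimensions `d ≥ 3` -/
theorem txt_all (h2 : StepL 2) (h : ∀ n : ℕ, 3 ≤ n → MainIneqZ n) (d : ℕ) (hd : 3 ≤ d) :
    Txt g d := by
  rcases Nat.lt_or_ge d 4 with h4 | h4
  · have : d = 3 := by omega
    subst this
    exact txt_three h2
  · exact txt_four h d h4

end Vale.Agent.P054.T3.H854
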