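import Vale.Agent.P054.T3.H854.Target
import Vale.Agent.P054.T2.H83.Iso

set_option autoImplicit false
set_option linter.all false

/-!
# P054 / T3: the frame of the lossless theorem

`StepL n` is what sections A, B, C, the planes and Lemma V have to prove together (a contradiction
for `|P| ≈ K t^((n+1)/2)`, `K` a large constant, `t ≥ t₀(K)`).  `lbd_of_step`: `StepL n` and the
lossless bounds in the even dimensions `4 ≤ 2 σ ≤ n` give the lossless bound in dimension `n + 1`.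
-/

namespace Vale.Agent.P054.T3.H854

open Module
open Vale.Agent.P054I Vale.Agent.P054K
open Vale.Agent.P054.T2.H686 (BB E dists DC_iff coe_dists dists_mono Qf zt BB_of_sex BB_zero BB_one)
open Vale.Agent.P054.T2.H83 (card_isotropic_le_card BB.mono)

/-- isotropic classes of dimension at most `2 σ`, `σ ≥ 2`, have at most `G σ` elements -/
def IsoBL (n : ℕ) (P : Finset (E n)) (G : ℕ → ℕ) : Prop :=
  ∀ σ : ℕ, 2 ≤ σ → ∀ (B : E n ≃ₗᵢ[ℝ] E n)
    (V : Submodule ℝ ((Fin (n + 1) → ℝ) × (Fin (n + 1) → ℝ)))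
    (z₀ : (Fin (n + 1) → ℝ) × (Fin (n + 1) → ℝ)),
    (∀ w ∈ V, Qf w = 0) → finrank ℝ V ≤ 2 * σ →
    ∀ cl : Finset (E n × E n), cl ⊆ P ×ˢ P → (∀ r ∈ cl, zt B r - z₀ ∈ V) → cl.card ≤ G σ

/-- the lossless bounds in the even dimensions `4 ≤ 2 σ ≤ n` and the bounds with `ε` in all
dimensions: all bounds in flats of dimension `m ≤ n`, `m ≤ 2 σ`, `σ ≥ 2` -/
theorem exists_iso_boundL (n : ℕ) (hS : ∀ m : ℕ, 2 ≤ m → Sex m (DC m) ((m : ℝ) / 2))
    (hI : ∀ σ : ℕ, 2 ≤ σ → 2 * σ ≤ n → LBd (2 * σ)) :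
    ∃ C : ℝ, 2 ≤ C ∧ ∀ t : ℕ, 1 ≤ t → ∀ m σ : ℕ, m ≤ n → m ≤ 2 * σ → 2 ≤ σ →
      BB m t (C * (t : ℝ) ^ (σ : ℝ)) := by
  have key : ∀ m : ℕ, ∃ C : ℝ, 2 ≤ C ∧ (m ≤ n → ∀ t : ℕ, 1 ≤ t → ∀ σ : ℕ, m ≤ 2 * σ → 2 ≤ σ →
      BB m t (C * (t : ℝ) ^ (σ : ℝ))) := by
    intro m
    rcases Nat.lt_or_ge m 2 with hm | hm
    · refine ⟨2, le_rfl, fun _ t ht σ _ hσ => ?_⟩
      have ht1 : (1 : ℝ) ≤ t := by exact_mod_cast ht
      have hσ1 : (2 : ℝ) ≤ σ := by exact_mod_cast hσ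
      have h1 : (t : ℝ) ≤ (t : ℝ) ^ (σ : ℝ) := by
        calc (t : ℝ) = (t : ℝ) ^ (1 : ℝ) := (Real.rpow_one _).symm
          _ ≤ _ := Real.rpow_le_rpow_of_exponent_le ht1 (by linarith)
      interval_cases m
      · exact BB.mono (BB_zero t) (by linarith)
      · exact BB.mono (BB_one t) (by linarith)
    · by_cases hmn : m ≤ n
      · obtain ⟨C, hC, h1⟩ := BB_of_sex (hS m hm) (1 / 2) (by norm_num)
        -- the lossless constant, if `m` is even and at least `4`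
        have hL : ∃ C' : ℝ, 0 < C' ∧ ∀ σ : ℕ, m = 2 * σ → 2 ≤ σ → ∀ t : ℕ, 1 ≤ t →
            BB m t (C' * (t : ℝ) ^ (σ : ℝ)) := by
          by_cases he : ∃ σ : ℕ, m = 2 * σ ∧ 2 ≤ σ
          · obtain ⟨σ, rfl, hσ⟩ := he
            obtain ⟨C', hC', h2⟩ := hI σ hσ hmn
            refine ⟨C', hC', fun σ' h _ t ht => ?_⟩
            have hσ' : σ' = σ := by omega
            subst hσ'
            have h3 := h2 t ht
            have h4 : ((2 * σ' : ℕ) : ℝ) / 2 = σ' := by push_cast; ring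
            rwa [h4] at h3
          · refine ⟨1, one_pos, fun σ h hσ => absurd ⟨σ, h, hσ⟩ he⟩
        obtain ⟨C', hC', h2⟩ := hL
        refine ⟨max (max C C') 2, le_max_right _ _, fun _ t ht σ hσ hσ2 => ?_⟩
        have ht1 : (1 : ℝ) ≤ t := by exact_mod_cast ht
        have hCC : C ≤ max (max C C') 2 := (le_max_left _ _).trans (le_max_left _ _)
        have hCC' : C' ≤ max (max C C') 2 := (le_max_right _ _).trans (le_max_left _ _)
        rcases Nat.lt_or_ge m (2 * σ) with hlt | hge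
        · refine BB.mono (h1 t ht) ?_
          have h3 : (m : ℝ) + 1 ≤ 2 * σ := by exact_mod_cast hlt
          have h4 : (t : ℝ) ^ ((m : ℝ) / 2 + 1 / 2) ≤ (t : ℝ) ^ (σ : ℝ) :=
            Real.rpow_le_rpow_of_exponent_le ht1 (by linarith)
          calc C * (t : ℝ) ^ ((m : ℝ) / 2 + 1 / 2)
              ≤ max (max C C') 2 * (t : ℝ) ^ ((m : ℝ) / 2 + 1 / 2) := by gcongr
            _ ≤ _ := by gcongr
        · refine BB.mono (h2 σ (by omega) hσ2 t ht) ?_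
          gcongr
      · exact ⟨2, le_rfl, fun h => absurd h hmn⟩
  choose C hC2 hC using key
  refine ⟨∑ m ∈ Finset.range (n + 1), C m, ?_, fun t ht m σ hm hσ h1 => ?_⟩
  · calc (2 : ℝ) ≤ C 0 := hC2 0
      _ ≤ ∑ m ∈ Finset.range (n + 1), C m :=
        Finset.single_le_sum (f := C) (fun m _ => by linarith [hC2 m])
          (Finset.mem_range.2 (by omega))
  · refine BB.mono (hC m hm t ht σ hσ h1) ?_
    have h2 : C m ≤ ∑ m ∈ Finset.range (n + 1), C m :=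
      Finset.single_le_sum (f := C) (fun m _ => by linarith [hC2 m])
        (Finset.mem_range.2 (by omega))
    gcongr

/-- **classes in isotropic flats**, `σ ≥ 2`: at most `C₁ K t^σ` -/
theorem isoBL_of (n : ℕ) (hS : ∀ m : ℕ, 2 ≤ m → Sex m (DC m) ((m : ℝ) / 2))
    (hI : ∀ σ : ℕ, 2 ≤ σ → 2 * σ ≤ n → LBd (2 * σ)) :
    ∃ C₁ : ℝ, 2 ≤ C₁ ∧ ∀ (K : ℝ) (t : ℕ) (P : Finset (E n)), 1 ≤ K → 1 ≤ t →
      (dists P).card ≤ t → (P.card : ℝ) ≤ 2 * (K * (t : ℝ) ^ (((n + 1 : ℕ) : ℝ) / 2)) →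
      IsoBL n P (fun σ => ⌊C₁ * K * (t : ℝ) ^ σ⌋₊) := by
  obtain ⟨C, hC2, hC⟩ := exists_iso_boundL n hS hI
  refine ⟨C, hC2, fun K t P hK ht1 ht hP σ hσ B V z₀ hQ hV cl hcl hclV => ?_⟩
  have htr : (1 : ℝ) ≤ t := by exact_mod_cast ht1
  have hdiff : ∀ s ∈ cl, ∀ s' ∈ cl, zt B s - zt B s' ∈ V := by
    intro s hs s' hs'
    have := V.sub_mem (hclV s hs) (hclV s' hs')
    rwa [sub_sub_sub_cancel_right] at this
  apply Nat.le_floor
  rw [← Real.rpow_natCast]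
  rcases Nat.lt_or_ge (finrank ℝ V) (n + 1) with h | h
  · have h1 := Vale.Agent.P054.T2.H686.card_isotropic_le P B ht V rfl hQ cl hcl hdiff
      (hC t ht1 _ σ (by omega) hV hσ)
    refine h1.trans ?_
    have h0 : 0 ≤ (t : ℝ) ^ (σ : ℝ) := by positivity
    nlinarith [mul_nonneg (mul_nonneg (show (0 : ℝ) ≤ C by linarith) (sub_nonneg.2 hK)) h0]
  · have h1 : (cl.card : ℝ) ≤ P.card := by
      exact_mod_cast card_isotropic_le_card P B V hQ cl hcl hdiff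
    refine (h1.trans hP).trans ?_
    have h3 : ((n + 1 : ℕ) : ℝ) ≤ 2 * σ := by exact_mod_cast h.trans hV
    have h2 : (t : ℝ) ^ (((n + 1 : ℕ) : ℝ) / 2) ≤ (t : ℝ) ^ (σ : ℝ) :=
      Real.rpow_le_rpow_of_exponent_le htr (by linarith)
    have hK0 : (0 : ℝ) ≤ K := by linarith
    calc 2 * (K * (t : ℝ) ^ (((n + 1 : ℕ) : ℝ) / 2)) ≤ 2 * (K * (t : ℝ) ^ (σ : ℝ)) := by gcongr
      _ = 2 * K * (t : ℝ) ^ (σ : ℝ) := by ring
      _ ≤ C * K * (t : ℝ) ^ (σ : ℝ) := by gcongr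

/-- **what all sections have to prove together in dimension `n + 1`** (`n ≥ 3`): for every constant
`C₁` in the bounds for isotropic classes, all large `K` and all `t ≥ t₀(K)` there is no set `P` of
about `K t^((n+1)/2)` points with at most `t` distances. -/
def StepL (n : ℕ) : Prop :=
  ∀ C₁ : ℝ, 2 ≤ C₁ → ∃ K₀ : ℝ, ∀ K : ℝ, K₀ ≤ K → 1 ≤ K → ∃ t₀ : ℕ, ∀ t : ℕ, t₀ ≤ t → 1 ≤ t →
    ∀ P : Finset (E n), (dists P).card ≤ t →
      K * (t : ℝ) ^ (((n + 1 : ℕ) : ℝ) / 2) ≤ P.card →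
      (P.card : ℝ) ≤ 2 * (K * (t : ℝ) ^ (((n + 1 : ℕ) : ℝ) / 2)) →
      IsoBL n P (fun σ => ⌊C₁ * K * (t : ℝ) ^ σ⌋₊) → False

/-- contradiction form with `t ≥ t₀(K)`; small `t` are treated with the bound with `ε` -/
theorem lbd_of_large {n : ℕ} (hS : Sex (n + 1) (DC (n + 1)) (((n + 1 : ℕ) : ℝ) / 2))
    (h : ∃ K : ℝ, 1 ≤ K ∧ ∃ t₀ : ℕ, ∀ t : ℕ, t₀ ≤ t → 1 ≤ t → ∀ P : Finset (E n),
      (dists P).card ≤ t → K * (t : ℝ) ^ (((n + 1 : ℕ) : ℝ) / 2) ≤ P.card →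
      (P.card : ℝ) ≤ 2 * (K * (t : ℝ) ^ (((n + 1 : ℕ) : ℝ) / 2)) → False) : LBd (n + 1) := by
  obtain ⟨K, hK, t₀, h⟩ := h
  obtain ⟨C, hC, h1⟩ := BB_of_sex hS 1 one_pos
  refine ⟨max K (C * ((t₀ : ℝ) + 1)), lt_of_lt_of_le (by linarith) (le_max_left _ _),
    fun t ht S hS => ?_⟩
  have ht1 : (1 : ℝ) ≤ t := by exact_mod_cast ht
  have ht0 : (0 : ℝ) < t := by linarith
  set y : ℝ := (t : ℝ) ^ (((n + 1 : ℕ) : ℝ) / 2) with hy
  have hy1 : 1 ≤ y := Real.one_le_rpow ht1 (by positivity)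
  rcases Nat.lt_or_ge t t₀ with hlt | hge
  · have h2 : (S.card : ℝ) ≤ C * (t : ℝ) ^ ((((n + 1 : ℕ) : ℝ)) / 2 + 1) := h1 t ht S hS
    rw [Real.rpow_add ht0, Real.rpow_one, ← hy] at h2
    refine h2.trans ?_
    have h3 : (t : ℝ) ≤ t₀ + 1 := by
      have : (t : ℝ) ≤ t₀ := by exact_mod_cast hlt.le
      linarith
    calc C * (y * (t : ℝ)) = C * (t : ℝ) * y := by ring
      _ ≤ C * ((t₀ : ℝ) + 1) * y := by gcongr
      _ ≤ _ := by gcongr; exact le_max_right _ _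
  · by_contra hcon
    push Not at hcon
    have hcon' : K * y < S.card := lt_of_le_of_lt (by gcongr; exact le_max_left _ _) hcon
    have hx1 : 1 ≤ K * y := by nlinarith
    have h2 : ⌈K * y⌉₊ ≤ S.card := Nat.ceil_le.2 hcon'.le
    obtain ⟨P', hP', hP'c⟩ := Finset.exists_subset_card_eq h2
    have hd : (dists P').card ≤ t := by
      refine (Finset.card_le_card (dists_mono hP')).trans ?_
      rwa [← coe_dists, Set.ncard_coe_finset] at hS
    refine h t hge ht P' hd ?_ ?_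
    · rw [hP'c]; exact Nat.le_ceil _
    · rw [hP'c]
      have := Nat.ceil_lt_add_one (show 0 ≤ K * y by linarith)
      linarith

/-- **FRAME**: the lossless bound in dimension `n + 1` from `StepL n` and the lossless bounds in the
even dimensions `4 ≤ 2 σ ≤ n` -/
theorem lbd_of_step {n : ℕ} (hn : 1 ≤ n)
    (hS : ∀ m : ℕ, 2 ≤ m → Sex m (DC m) ((m : ℝ) / 2))
    (hI : ∀ σ : ℕ, 2 ≤ σ → 2 * σ ≤ n → LBd (2 * σ)) (h : StepL n) : LBd (n + 1) := by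
  obtain ⟨C₁, hC₁, hiso⟩ := isoBL_of n hS hI
  obtain ⟨K₀, hK₀⟩ := h C₁ hC₁
  obtain ⟨t₀, ht₀⟩ := hK₀ (max K₀ 1) (le_max_left _ _) (le_max_right _ _)
  refine lbd_of_large (hS (n + 1) (by omega)) ⟨max K₀ 1, le_max_right _ _, t₀,
    fun t ht ht1 P hP h1 h2 => ?_⟩
  exact ht₀ t ht ht1 P hP h1 h2 (hiso _ t P (le_max_right _ _) ht1 hP h2)

/-- **top**: the lossless bound in all dimensions `d ≥ 4` -/
theorem lbd_of_steps (hS : ∀ m : ℕ, 2 ≤ m → Sex m (DC m) ((m : ℝ) / 2))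
    (h : ∀ n : ℕ, 3 ≤ n → StepL n) : ∀ d : ℕ, 4 ≤ d → LBd d := by
  intro d
  induction d using Nat.strong_induction_on with
  | _ d ih =>
    intro hd
    obtain ⟨n, rfl⟩ : ∃ n, d = n + 1 := ⟨d - 1, by omega⟩
    exact lbd_of_step (by omega) hS (fun σ hσ hσn => ih (2 * σ) (by omega) (by omega))
      (h n (by omega))

/-- **top**, with dimension `3`: the full statement -/
theorem txt_of_steps (hS : ∀ m : ℕ, 2 ≤ m → Sex m (DC m) ((m : ℝ) / 2))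
    (h3 : LBd 3) (h : ∀ n : ℕ, 3 ≤ n → StepL n) (d : ℕ) (hd : 3 ≤ d) : Txt g d := by
  refine txt_of_LBd (by omega) ?_
  rcases Nat.lt_or_ge d 4 with h4 | h4
  · have : d = 3 := by omega
    subst this
    exact h3
  · exact lbd_of_steps hS h d h4

end Vale.Agent.P054.T3.H854
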