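import Vale.Agent.P054.T3.H854.EndZ
import Vale.Agent.P054.T3.H807.Gain

set_option autoImplicit false
set_option linter.all false

/-!
# P054 / T3: from natural numbers to `SideOK`, `ThirdOK`

`Θ`-bookkeeping: `β ^ (c h + d)` with `c`, `d` constants.
-/

namespace Vale.Agent.P054.T3.H854

open Finset
open Vale.Agent.P054.T3.H807 (pdeg pdeg_gain pdeg_nogain pdeg_le one_le_pdeg)

/-- the count of one leaf, literal copy of `H807.leafB` -/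
def leafB' (n σ t G Gf : ℕ) : ℕ := if σ < n then t ^ σ + G else Gf

/-- **one side** in natural numbers.  `B` constant of section C, `S` vertices, `pd` product of the
degrees, `G` bound for isotropic classes, `Gf` bound for flats and `|P|`. -/
theorem sideOK_of {n σ B S pd t τ G Gf : ℕ} {Θ g K z N Θ₁ Θ₂ Θ₃ Θ₄ : ℝ}
    (hg : 0 < g) (hK : 1 ≤ K) (hz : 0 < z) (hσ : σ ≤ n) (ht : 1 ≤ t)
    (h1 : 1 ≤ Θ₁) (h2 : 1 ≤ Θ₂) (h3 : 1 ≤ Θ₃) (h4 : 1 ≤ Θ₄)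
    (hΘ : Θ₁ * Θ₂ * Θ₃ * Θ₄ ≤ Θ)
    (hB : (B : ℝ) ≤ Θ₁) (hS : (S : ℝ) ≤ N) (hpd : (pd : ℝ) ≤ Θ₂ * (τ : ℝ) ^ (n - σ))
    (hG : σ < n → (G : ℝ) ≤ Θ₃ * (K * z ^ (-(1 / 15 : ℝ))) * (t : ℝ) ^ σ)
    (hGf : σ = n → (Gf : ℝ) ≤ Θ₃ * (K * (t : ℝ) ^ ((n : ℝ) - 1 / 4)))
    (hgain : σ < n → ((pd : ℝ) * g ≤ Θ₂ * (τ : ℝ) ^ (n - σ) ∨
      (S : ℝ) * g ≤ Θ₄ * (K * ((τ : ℝ) * (t : ℝ) ^ n)))) :
    SideOK n Θ g K t z τ N ((B * (S * (pd * leafB' n σ t G Gf)) : ℕ) : ℝ) := by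
  have ht0 : (0 : ℝ) < t := by exact_mod_cast ht
  have hS0 : (0 : ℝ) ≤ S := Nat.cast_nonneg _
  have hN0 : 0 ≤ N := hS0.trans hS
  have hpd0 : (0 : ℝ) ≤ pd := Nat.cast_nonneg _
  have hB0 : (0 : ℝ) ≤ B := Nat.cast_nonneg _
  have hK0 : 0 < K := by linarith
  have hΘ12 : Θ₁ ≤ Θ := by
    calc Θ₁ = Θ₁ * 1 * 1 * 1 := by ring
      _ ≤ Θ₁ * Θ₂ * Θ₃ * Θ₄ := by gcongr
      _ ≤ Θ := hΘ
  have hΘ2 : Θ₂ ≤ Θ := by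
    calc Θ₂ = 1 * Θ₂ * 1 * 1 := by ring
      _ ≤ Θ₁ * Θ₂ * Θ₃ * Θ₄ := by gcongr
      _ ≤ Θ := hΘ
  have hΘ3 : Θ₃ ≤ Θ := by
    calc Θ₃ = 1 * 1 * Θ₃ * 1 := by ring
      _ ≤ Θ₁ * Θ₂ * Θ₃ * Θ₄ := by gcongr
      _ ≤ Θ := hΘ
  have hΘ4 : Θ₄ ≤ Θ := by
    calc Θ₄ = 1 * 1 * 1 * Θ₄ := by ring
      _ ≤ Θ₁ * Θ₂ * Θ₃ * Θ₄ := by gcongr
      _ ≤ Θ := hΘ
  have hΘ123 : Θ₁ * Θ₂ * Θ₃ ≤ Θ := by
    calc Θ₁ * Θ₂ * Θ₃ = Θ₁ * Θ₂ * Θ₃ * 1 := by ring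
      _ ≤ Θ₁ * Θ₂ * Θ₃ * Θ₄ := by gcongr
      _ ≤ Θ := hΘ
  rcases hσ.lt_or_eq with hlt | heq
  · -- `σ < n`
    refine Or.inr ⟨σ, hlt, S, pd, G, hS0, hpd0, ?_, hS, ?_, ?_, ?_⟩
    · unfold leafB'
      rw [if_pos hlt]
      push_cast
      have h5 : (0 : ℝ) ≤ (S : ℝ) * pd * ((t : ℝ) ^ σ + G) := by positivity
      calc (B : ℝ) * (S * (pd * ((t : ℝ) ^ σ + G))) = B * (S * pd * ((t : ℝ) ^ σ + G)) := by ring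
        _ ≤ Θ * (S * pd * ((t : ℝ) ^ σ + G)) :=
            mul_le_mul_of_nonneg_right (hB.trans hΘ12) h5
    · exact hpd.trans (by gcongr)
    · refine (hG hlt).trans ?_
      have h5 : (0 : ℝ) ≤ K * z ^ (-(1 / 15 : ℝ)) := by positivity
      gcongr
    · rcases hgain hlt with h5 | h5
      · exact Or.inl (h5.trans (by gcongr))
      · exact Or.inr (h5.trans (by gcongr))
  · -- `σ = n`
    refine Or.inl ?_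
    unfold leafB'
    rw [if_neg (by omega)]
    push_cast
    have h5 : (pd : ℝ) ≤ Θ₂ := by
      have := hpd
      rwa [heq, Nat.sub_self, pow_zero, mul_one] at this
    calc (B : ℝ) * (S * (pd * Gf))
        ≤ Θ₁ * (N * (Θ₂ * (Θ₃ * (K * (t : ℝ) ^ ((n : ℝ) - 1 / 4))))) := by
          gcongr
          exact hGf heq
      _ = (Θ₁ * Θ₂ * Θ₃) * (N * (K * (t : ℝ) ^ ((n : ℝ) - 1 / 4))) := by ring
      _ ≤ Θ * (N * (K * (t : ℝ) ^ ((n : ℝ) - 1 / 4))) := by gcongr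

/-- the third term, literal copy of `H533.termF` -/
def termF' (n σ₁ σ₂ t pF : ℕ) : ℕ := if σ₁ < n ∧ σ₂ < n then pF * t ^ (σ₁ + σ₂) else 0

/-- **the third term** in natural numbers -/
theorem thirdOK_of {n σ₁ σ₂ B pF t τ : ℕ} {Θ g Θ₁ Θ₂ : ℝ} (hg : 0 < g) (h1 : 1 ≤ Θ₁)
    (hB : (B : ℝ) ≤ Θ₁) (h2 : 0 ≤ Θ₂) (hΘ : Θ₁ * Θ₂ ≤ Θ)
    (hpF : σ₁ < n → σ₂ < n → (pF : ℝ) * g ≤ Θ₂ * (τ : ℝ) ^ (2 * n + 1 - (σ₁ + σ₂))) :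
    ThirdOK n Θ g t τ ((B * termF' n σ₁ σ₂ t pF : ℕ) : ℝ) := by
  unfold termF'
  by_cases hc : σ₁ < n ∧ σ₂ < n
  · rw [if_pos hc]
    refine Or.inr ⟨2 * n + 1 - (σ₁ + σ₂), by omega, by omega, ?_⟩
    have e1 : 2 * n + 1 - (2 * n + 1 - (σ₁ + σ₂)) = σ₁ + σ₂ := by omega
    rw [e1]
    push_cast
    have hB0 : (0 : ℝ) ≤ B := Nat.cast_nonneg _
    have h5 := hpF hc.1 hc.2
    have h6 : (0 : ℝ) ≤ (pF : ℝ) * g := by positivity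
    calc (B : ℝ) * (pF * (t : ℝ) ^ (σ₁ + σ₂)) * g = B * ((pF * g) * (t : ℝ) ^ (σ₁ + σ₂)) := by ring
      _ ≤ Θ₁ * ((Θ₂ * (τ : ℝ) ^ (2 * n + 1 - (σ₁ + σ₂))) * (t : ℝ) ^ (σ₁ + σ₂)) :=
          mul_le_mul hB (mul_le_mul_of_nonneg_right h5 (by positivity)) (by positivity)
            (by linarith)
      _ = (Θ₁ * Θ₂) * ((τ : ℝ) ^ (2 * n + 1 - (σ₁ + σ₂)) * (t : ℝ) ^ (σ₁ + σ₂)) := by ring
      _ ≤ _ := by gcongr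
  · rw [if_neg hc]
    exact Or.inl (by simp)

/-! ## `Θ`-bookkeeping -/

/-- `b ^ x ≤ β ^ (c h + d)` if `L x ≤ c h + d` -/
theorem pow_le_theta {β L x c d h : ℕ} (hβ : 1 ≤ β) (hx : L * x ≤ c * h + d) :
    ((β ^ L) ^ x : ℕ) ≤ β ^ (c * h + d) := by
  rw [← pow_mul]
  exact Nat.pow_le_pow_right hβ hx

/-- products of `Θ`'s -/
theorem theta_mul {β : ℝ} (c d c' d' h : ℕ) :
    β ^ (c * h + d) * β ^ (c' * h + d') = β ^ ((c + c') * h + (d + d')) := by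
  rw [← pow_add]; congr 1; ring

theorem theta_mono {β : ℝ} (hβ : 1 ≤ β) {c d c' d' h : ℕ} (hc : c ≤ c') (hd : d ≤ d') :
    β ^ (c * h + d) ≤ β ^ (c' * h + d') :=
  pow_le_pow_right₀ hβ (by nlinarith [Nat.mul_le_mul_right h hc])

/-- the gain of an early first drop in real numbers: `pdeg_gain` with `x`, `g` -/
theorem pdeg_gain_real {β L τ ell x q k₀ f c d c' h : ℕ} {v : ℕ → ℕ} (hβ : 1 ≤ β)
    (hmono : ∀ k l : ℕ, k ≤ l → l < k₀ + 1 → v k ≤ v l) (hell : (β ^ L) ^ ell ≤ τ)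
    (hk₀ : k₀ ≤ ell + x) (hf : f ≤ k₀) (hvf : 1 ≤ v f) (hq : f + q ≤ ell) (hc : v k₀ ≤ c')
    (hx : L * x ≤ c * h + d) :
    (pdeg (β ^ L) k₀ v : ℝ) * (β : ℝ) ^ (L * q) ≤
      (β : ℝ) ^ (c * c' * h + d * c') * (τ : ℝ) ^ v k₀ := by
  have hb : 1 ≤ β ^ L := Nat.one_le_pow _ _ hβ
  have h1 := pdeg_gain hb hmono hell hk₀ hf hvf hq
  have h2 : (β ^ L) ^ (x * v k₀) ≤ β ^ (c * c' * h + d * c') := by
    rw [← pow_mul]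
    apply Nat.pow_le_pow_right hβ
    calc L * (x * v k₀) = (L * x) * v k₀ := by ring
      _ ≤ (c * h + d) * c' := Nat.mul_le_mul hx hc
      _ = _ := by ring
  have h3 : pdeg (β ^ L) k₀ v * β ^ (L * q) ≤ β ^ (c * c' * h + d * c') * τ ^ v k₀ := by
    rw [pow_mul]
    exact h1.trans (Nat.mul_le_mul_right _ h2)
  exact_mod_cast h3

/-- without a gain -/
theorem pdeg_nogain_real {β L τ ell x k₀ c d c' h : ℕ} {v : ℕ → ℕ} (hβ : 1 ≤ β)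
    (hmono : ∀ k l : ℕ, k ≤ l → l < k₀ + 1 → v k ≤ v l) (hell : (β ^ L) ^ ell ≤ τ)
    (hk₀ : k₀ ≤ ell + x) (hc : v k₀ ≤ c') (hx : L * x ≤ c * h + d) :
    (pdeg (β ^ L) k₀ v : ℝ) ≤ (β : ℝ) ^ (c * c' * h + d * c') * (τ : ℝ) ^ v k₀ := by
  have hb : 1 ≤ β ^ L := Nat.one_le_pow _ _ hβ
  have h1 := pdeg_nogain hb hmono hell hk₀
  have h2 : (β ^ L) ^ (x * v k₀) ≤ β ^ (c * c' * h + d * c') := by
    rw [← pow_mul]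
    apply Nat.pow_le_pow_right hβ
    calc L * (x * v k₀) = (L * x) * v k₀ := by ring
      _ ≤ (c * h + d) * c' := Nat.mul_le_mul hx hc
      _ = _ := by ring
  have h3 : pdeg (β ^ L) k₀ v ≤ β ^ (c * c' * h + d * c') * τ ^ v k₀ :=
    h1.trans (Nat.mul_le_mul_right _ h2)
  exact_mod_cast h3

/-- a gain is free if it is bounded: `h ≤ H₀` -/
theorem gain_small {β L h H₀ : ℕ} {X Y Z : ℝ} (hβ : (1 : ℝ) ≤ β) (hh : h ≤ H₀) (hX : X ≤ Y * Z)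
    (hX0 : 0 ≤ X) : X * (β : ℝ) ^ (L * (h / 6)) ≤ ((β : ℝ) ^ (L * H₀) * Y) * Z := by
  have h1 : (β : ℝ) ^ (L * (h / 6)) ≤ (β : ℝ) ^ (L * H₀) :=
    pow_le_pow_right₀ hβ (Nat.mul_le_mul_left _ (by omega))
  have h2 : 0 ≤ (β : ℝ) ^ (L * (h / 6)) := by positivity
  calc X * (β : ℝ) ^ (L * (h / 6)) ≤ X * (β : ℝ) ^ (L * H₀) := by gcongr
    _ ≤ (Y * Z) * (β : ℝ) ^ (L * H₀) := by gcongr
    _ = _ := by ring

end Vale.Agent.P054.T3.H854
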