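import Vale.Agent.P054.T3.H854.Frame

set_option autoImplicit false
set_option linter.all false

/-!
# P054 / T3: END, the closing arithmetic of the lossless theorem

`MainOut` is the record of numbers which the assembly of all sections has to produce for one set `P`:
`h` is the distance (in levels of the fine scale `β^L`) of the first drop, `y` the multiplicity class
of the distances, `Θ = β^(C₀ h + C₁)` the total loss, `β^(L ⌊h/3⌋)` the gain of each of the three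
terms.  `no_mainOut`: for `L` large (depending on `C₀`) and `K` large it does not exist.
-/

namespace Vale.Agent.P054.T3.H854

open Module
open Vale.Agent.P054I Vale.Agent.P054K
open Vale.Agent.P054.T2.H686 (E dists)

/-- the numbers at the end of the count.  `C₀`, `a` depend on `n` only, `L`, `κ` are parameters,
`β`, `C₁` may depend on `L`, `κ`; `N = |P|²`. -/
structure MainOut (n β L C₀ C₁ a : ℕ) (κ K t N : ℝ) where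
  /-- the distance of the first drop -/
  h : ℕ
  /-- the multiplicity class of the distances -/
  y : ℝ
  y1 : 1 ≤ y
  /-- number of good edges -/
  A : ℝ
  /-- number of edges between isotropic 2-planes with many points -/
  PS : ℝ
  σ₁ : ℕ
  σ₂ : ℕ
  hσ₁ : σ₁ ≤ n
  hσ₂ : σ₂ ≤ n
  /-- numbers of vertices -/
  S₁ : ℝ
  S₂ : ℝ
  /-- products of degrees -/
  D₁ : ℝ
  D₂ : ℝ
  DF : ℝ
  /-- bounds for isotropic classes -/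
  G₁ : ℝ
  G₂ : ℝ
  hS₁ : 0 ≤ S₁
  hS₂ : 0 ≤ S₂
  hD₁ : 0 ≤ D₁
  hD₂ : 0 ≤ D₂
  hDF : 0 ≤ DF
  /-- the start -/
  start : y ^ (1 - κ) * K ^ 2 * N * t ^ n ≤ (β : ℝ) ^ (C₀ * h + C₁) * A
  /-- the count -/
  count : A ≤ (β : ℝ) ^ (C₀ * h + C₁) * (S₁ * D₁ * (t ^ σ₁ + G₁))
    + (β : ℝ) ^ (C₀ * h + C₁) * (S₂ * D₂ * (t ^ σ₂ + G₂))
    + (β : ℝ) ^ (C₀ * h + C₁) * (DF * t ^ (σ₁ + σ₂)) + PS
  planes : 2 * PS ≤ A
  iso₁ : G₁ ≤ (β : ℝ) ^ (C₀ * h + C₁) * (K * y ^ ((a : ℝ) * κ)) * t ^ σ₁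
  iso₂ : G₂ ≤ (β : ℝ) ^ (C₀ * h + C₁) * (K * y ^ ((a : ℝ) * κ)) * t ^ σ₂
  gain₁ : S₁ * D₁ * (β : ℝ) ^ (L * (h / 3)) ≤ (β : ℝ) ^ (C₀ * h + C₁) * (N * t ^ (n - σ₁))
  gain₂ : S₂ * D₂ * (β : ℝ) ^ (L * (h / 3)) ≤ (β : ℝ) ^ (C₀ * h + C₁) * (N * t ^ (n - σ₂))
  gainF : DF * (β : ℝ) ^ (L * (h / 3)) ≤ (β : ℝ) ^ (C₀ * h + C₁) * t ^ (2 * n + 1 - (σ₁ + σ₂))

/-- exponents: `4 (C₀ h + C₁) ≤ L ⌊h/3⌋ + C` -/
theorem exp_le {L C₀ C₁ h : ℕ} (hL : 12 * C₀ ≤ L) :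
    4 * (C₀ * h + C₁) ≤ L * (h / 3) + (8 * C₀ + 4 * C₁) := by
  obtain ⟨q, r, hr, hh⟩ : ∃ q r, r < 3 ∧ h = 3 * q + r :=
    ⟨h / 3, h % 3, Nat.mod_lt _ (by norm_num), (Nat.div_add_mod h 3).symm⟩
  have hq : h / 3 = q := by omega
  rw [hq]
  have h1 : 12 * C₀ * q ≤ L * q := Nat.mul_le_mul_right _ hL
  have h2 : C₀ * r ≤ C₀ * 2 := Nat.mul_le_mul_left _ (by omega)
  calc 4 * (C₀ * h + C₁) = 12 * C₀ * q + 4 * (C₀ * r) + 4 * C₁ := by rw [hh]; ring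
    _ ≤ L * q + 4 * (C₀ * 2) + 4 * C₁ := by omega
    _ = _ := by ring

/-- **END**: the numbers do not exist if `L ≥ 12 C₀`, `(a + 1) κ ≤ 1` and `K` is large -/
theorem no_mainOut {n β L C₀ C₁ a : ℕ} {κ K t N : ℝ} (hβ : 2 ≤ β) (hL : 12 * C₀ ≤ L)
    (hκ : 0 ≤ κ) (hκa : ((a : ℝ) + 1) * κ ≤ 1) (ht : 1 ≤ t) (hN : t ^ (n + 1) ≤ N)
    (hK1 : 1 ≤ K) (hK : 10 * (β : ℝ) ^ (8 * C₀ + 4 * C₁) < K) (M : MainOut n β L C₀ C₁ a κ K t N) :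
    False := by
  obtain ⟨h, y, hy1, A, PS, σ₁, σ₂, hσ₁, hσ₂, S₁, S₂, D₁, D₂, DF, G₁, G₂, hS₁, hS₂, hD₁, hD₂, hDF,
    start, count, planes, iso₁, iso₂, gain₁, gain₂, gainF⟩ := M
  have hβ1 : (1 : ℝ) ≤ β := by exact_mod_cast (by omega : 1 ≤ β)
  have hβ0 : (0 : ℝ) < β := by linarith
  set Θ : ℝ := (β : ℝ) ^ (C₀ * h + C₁) with hΘ
  set Γ : ℝ := (β : ℝ) ^ (L * (h / 3)) with hΓ
  set Y : ℝ := y ^ ((a : ℝ) * κ) with hY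
  have hΘ1 : 1 ≤ Θ := one_le_pow₀ hβ1
  have hΓ0 : 0 < Γ := by positivity
  have ht0 : 0 < t := by linarith
  have hN0 : 0 < N := lt_of_lt_of_le (by positivity) hN
  have hY1 : 1 ≤ Y := Real.one_le_rpow hy1 (by positivity)
  have hKY : 1 ≤ K * Y := by nlinarith
  have hΘKY : 1 ≤ Θ * (K * Y) := by nlinarith
  -- one side
  have side : ∀ (S D G : ℝ) (σ : ℕ), σ ≤ n → 0 ≤ S → 0 ≤ D → G ≤ Θ * (K * Y) * t ^ σ →
      S * D * Γ ≤ Θ * (N * t ^ (n - σ)) →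
      S * D * (t ^ σ + G) * Γ ≤ 2 * Θ ^ 2 * (K * Y) * (N * t ^ n) := by
    intro S D G σ hσ hS hD hG hg
    have h1 : t ^ σ + G ≤ 2 * (Θ * (K * Y)) * t ^ σ := by
      have h2 : t ^ σ ≤ Θ * (K * Y) * t ^ σ := le_mul_of_one_le_left (by positivity) hΘKY
      linarith
    have h3 : t ^ (n - σ) * t ^ σ = t ^ n := by rw [← pow_add]; congr 1; omega
    calc S * D * (t ^ σ + G) * Γ ≤ S * D * (2 * (Θ * (K * Y)) * t ^ σ) * Γ := by gcongr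
      _ = (S * D * Γ) * (2 * (Θ * (K * Y)) * t ^ σ) := by ring
      _ ≤ (Θ * (N * t ^ (n - σ))) * (2 * (Θ * (K * Y)) * t ^ σ) := by gcongr
      _ = 2 * Θ ^ 2 * (K * Y) * (N * (t ^ (n - σ) * t ^ σ)) := by ring
      _ = _ := by rw [h3]
  have s1 := side S₁ D₁ G₁ σ₁ hσ₁ hS₁ hD₁ iso₁ gain₁
  have s2 := side S₂ D₂ G₂ σ₂ hσ₂ hS₂ hD₂ iso₂ gain₂
  -- the third term
  have s3 : DF * t ^ (σ₁ + σ₂) * Γ ≤ Θ ^ 2 * (K * Y) * (N * t ^ n) := by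
    have h3 : t ^ (2 * n + 1 - (σ₁ + σ₂)) * t ^ (σ₁ + σ₂) ≤ N * t ^ n := by
      rcases Nat.lt_or_ge (2 * n + 1) (σ₁ + σ₂) with hc | hc
      · omega
      · rw [← pow_add, Nat.sub_add_cancel hc]
        calc t ^ (2 * n + 1) = t ^ (n + 1) * t ^ n := by rw [← pow_add]; congr 1; omega
          _ ≤ N * t ^ n := by gcongr
    calc DF * t ^ (σ₁ + σ₂) * Γ = (DF * Γ) * t ^ (σ₁ + σ₂) := by ring
      _ ≤ (Θ * t ^ (2 * n + 1 - (σ₁ + σ₂))) * t ^ (σ₁ + σ₂) := by gcongr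
      _ = Θ * (t ^ (2 * n + 1 - (σ₁ + σ₂)) * t ^ (σ₁ + σ₂)) := by ring
      _ ≤ Θ * (N * t ^ n) := by gcongr
      _ = Θ * 1 * (N * t ^ n) := by ring
      _ ≤ Θ * (Θ * (K * Y)) * (N * t ^ n) := by gcongr
      _ = _ := by ring
  -- the sum
  have hX0 : 0 < N * t ^ n := by positivity
  have h5 : A * Γ ≤ 10 * Θ ^ 3 * (K * Y) * (N * t ^ n) := by
    have h6 : A * Γ ≤ 2 * (Θ * (S₁ * D₁ * (t ^ σ₁ + G₁) * Γ) + Θ * (S₂ * D₂ * (t ^ σ₂ + G₂) * Γ)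
        + Θ * (DF * t ^ (σ₁ + σ₂) * Γ)) := by
      have h7 : A ≤ 2 * (Θ * (S₁ * D₁ * (t ^ σ₁ + G₁)) + Θ * (S₂ * D₂ * (t ^ σ₂ + G₂))
        + Θ * (DF * t ^ (σ₁ + σ₂))) := by linarith
      calc A * Γ ≤ (2 * (Θ * (S₁ * D₁ * (t ^ σ₁ + G₁)) + Θ * (S₂ * D₂ * (t ^ σ₂ + G₂))
        + Θ * (DF * t ^ (σ₁ + σ₂)))) * Γ := by gcongr
        _ = _ := by ring
    refine h6.trans ?_
    calc 2 * (Θ * (S₁ * D₁ * (t ^ σ₁ + G₁) * Γ) + Θ * (S₂ * D₂ * (t ^ σ₂ + G₂) * Γ)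
        + Θ * (DF * t ^ (σ₁ + σ₂) * Γ))
        ≤ 2 * (Θ * (2 * Θ ^ 2 * (K * Y) * (N * t ^ n)) + Θ * (2 * Θ ^ 2 * (K * Y) * (N * t ^ n))
          + Θ * (Θ ^ 2 * (K * Y) * (N * t ^ n))) := by gcongr
      _ = _ := by ring
  have h8 : y ^ (1 - κ) * K ^ 2 * Γ ≤ 10 * Θ ^ 4 * (K * Y) := by
    have h9 : (y ^ (1 - κ) * K ^ 2 * Γ) * (N * t ^ n) ≤ (10 * Θ ^ 4 * (K * Y)) * (N * t ^ n) := by
      calc (y ^ (1 - κ) * K ^ 2 * Γ) * (N * t ^ n) = (y ^ (1 - κ) * K ^ 2 * N * t ^ n) * Γ := by ring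
        _ ≤ (Θ * A) * Γ := by gcongr
        _ = Θ * (A * Γ) := by ring
        _ ≤ Θ * (10 * Θ ^ 3 * (K * Y) * (N * t ^ n)) := by gcongr
        _ = _ := by ring
    exact le_of_mul_le_mul_right h9 hX0
  have hYy : Y ≤ y ^ (1 - κ) := Real.rpow_le_rpow_of_exponent_le hy1 (by linarith)
  have hy0 : 0 < y ^ (1 - κ) := by positivity
  have h10 : K * Γ ≤ 10 * Θ ^ 4 := by
    have h11 : (K * Γ) * (y ^ (1 - κ) * K) ≤ (10 * Θ ^ 4) * (y ^ (1 - κ) * K) := by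
      calc (K * Γ) * (y ^ (1 - κ) * K) = y ^ (1 - κ) * K ^ 2 * Γ := by ring
        _ ≤ 10 * Θ ^ 4 * (K * Y) := h8
        _ ≤ 10 * Θ ^ 4 * (K * y ^ (1 - κ)) := by gcongr
        _ = _ := by ring
    exact le_of_mul_le_mul_right h11 (by positivity)
  have h12 : Θ ^ 4 ≤ (β : ℝ) ^ (8 * C₀ + 4 * C₁) * Γ := by
    rw [hΘ, ← pow_mul, hΓ, ← pow_add]
    apply pow_le_pow_right₀ hβ1
    have := exp_le (C₁ := C₁) (h := h) hL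
    calc (C₀ * h + C₁) * 4 = 4 * (C₀ * h + C₁) := by ring
      _ ≤ _ := this
      _ = _ := by ring
  have h13 : K * Γ ≤ (10 * (β : ℝ) ^ (8 * C₀ + 4 * C₁)) * Γ := by
    calc K * Γ ≤ 10 * Θ ^ 4 := h10
      _ ≤ 10 * ((β : ℝ) ^ (8 * C₀ + 4 * C₁) * Γ) := by gcongr
      _ = _ := by ring
  have h14 : K ≤ 10 * (β : ℝ) ^ (8 * C₀ + 4 * C₁) := le_of_mul_le_mul_right h13 hΓ0
  linarith

/-- **what the assembly has to prove in dimension `n + 1`** -/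
def MainIneqL (n : ℕ) : Prop :=
  ∃ C₀ a : ℕ, ∃ κ₀ : ℝ, 0 < κ₀ ∧ ∀ κ : ℝ, 0 < κ → κ ≤ κ₀ → ∃ L₀ : ℕ, ∀ L : ℕ, L₀ ≤ L →
    ∀ C : ℝ, 2 ≤ C → ∃ β C₁ : ℕ, 2 ≤ β ∧ ∃ K₀ : ℝ, ∀ K : ℝ, K₀ ≤ K → 1 ≤ K → ∃ t₀ : ℕ,
      ∀ t : ℕ, t₀ ≤ t → 1 ≤ t → ∀ P : Finset (E n), (dists P).card ≤ t →
        K * (t : ℝ) ^ (((n + 1 : ℕ) : ℝ) / 2) ≤ P.card →
        (P.card : ℝ) ≤ 2 * (K * (t : ℝ) ^ (((n + 1 : ℕ) : ℝ) / 2)) →
        IsoBL n P (fun σ => ⌊C * K * (t : ℝ) ^ σ⌋₊) →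
        Nonempty (MainOut n β L C₀ C₁ a κ K t ((P.card : ℝ) ^ 2))

/-- **END** -/
theorem stepL_of_mainIneqL {n : ℕ} (h : MainIneqL n) : StepL n := by
  obtain ⟨C₀, a, κ₀, hκ₀, h⟩ := h
  intro C hC
  have ha : (0 : ℝ) < (a : ℝ) + 1 := by positivity
  set κ : ℝ := min κ₀ (1 / ((a : ℝ) + 1)) with hκ
  have hκ0 : 0 < κ := lt_min hκ₀ (by positivity)
  have hκa : ((a : ℝ) + 1) * κ ≤ 1 := by
    calc ((a : ℝ) + 1) * κ ≤ ((a : ℝ) + 1) * (1 / ((a : ℝ) + 1)) := by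
          gcongr; exact min_le_right _ _
      _ = 1 := by field_simp
  obtain ⟨L₀, h⟩ := h κ hκ0 (min_le_left _ _)
  obtain ⟨β, C₁, hβ, K₀, h⟩ := h (max L₀ (12 * C₀)) (le_max_left _ _) C hC
  refine ⟨max K₀ (10 * (β : ℝ) ^ (8 * C₀ + 4 * C₁) + 1), fun K hK hK1 => ?_⟩
  obtain ⟨t₀, h⟩ := h K ((le_max_left _ _).trans hK) hK1
  refine ⟨t₀, fun t ht ht1 P hP h1 h2 h3 => ?_⟩
  obtain ⟨M⟩ := h t ht ht1 P hP h1 h2 h3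
  have ht1' : (1 : ℝ) ≤ t := by exact_mod_cast ht1
  have ht0 : (0 : ℝ) ≤ t := by linarith
  have hN : (t : ℝ) ^ (n + 1) ≤ (P.card : ℝ) ^ 2 := by
    have h4 : ((t : ℝ) ^ (((n + 1 : ℕ) : ℝ) / 2)) ^ 2 = (t : ℝ) ^ (n + 1) := by
      rw [← Real.rpow_natCast, ← Real.rpow_mul ht0]
      rw [← Real.rpow_natCast]
      congr 1
      push_cast
      ring
    rw [← h4]
    have h5 : (t : ℝ) ^ (((n + 1 : ℕ) : ℝ) / 2) ≤ P.card := by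
      refine le_trans ?_ h1
      exact le_mul_of_one_le_left (by positivity) hK1
    gcongr
  refine no_mainOut hβ (le_max_right _ _) hκ0.le hκa ht1' hN hK1 ?_ M
  have := (le_max_right K₀ (10 * (β : ℝ) ^ (8 * C₀ + 4 * C₁) + 1)).trans hK
  linarith

end Vale.Agent.P054.T3.H854
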