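import Vale.Agent.P054.T3.H854.Frame

set_option autoImplicit false
set_option linter.all false

/-!
# P054 / T3: END for the extremal start, the closing arithmetic of the lossless theorem

`MainOutZ` is the record of numbers which the assembly of all sections has to produce for one set `P`.
`N = z |P|²` is the number of vertices of the extremal set, `τ` the constant of the contagion
(`N² ≤ τ |E₀|`, `τ ≤ Θ t z^(3/5)`), `h` the distance (in levels of the fine scale `β^L`) of the first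
drop, `Θ = β^(C₀ h + C₁)` the total loss, `g = β^(L ⌊h/6⌋)` the gain.
`no_mainOutZ`: for `L` large (depending on `C₀`, `n`) and `K` large it does not exist.
-/

namespace Vale.Agent.P054.T3.H854

open Module
open Vale.Agent.P054I Vale.Agent.P054K
open Vale.Agent.P054.T2.H686 (E dists)

/-- the contribution `X` of one side of the count; first alternative: `σ = n`, second: `σ < n` with
a gain `g` in the product `D` of the degrees or in the number `S` of vertices -/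
def SideOK (n : ℕ) (Θ g K t z τ N X : ℝ) : Prop :=
  X ≤ Θ * (N * (K * t ^ ((n : ℝ) - 1 / 4))) ∨
  ∃ σ : ℕ, σ < n ∧ ∃ S D G : ℝ, 0 ≤ S ∧ 0 ≤ D ∧ X ≤ Θ * (S * D * (t ^ σ + G)) ∧ S ≤ N ∧
    D ≤ Θ * τ ^ (n - σ) ∧ G ≤ Θ * (K * z ^ (-(1 / 15 : ℝ))) * t ^ σ ∧
    (D * g ≤ Θ * τ ^ (n - σ) ∨ S * g ≤ Θ * (K * (τ * t ^ n)))

/-- the contribution `X` of the pairs of classes -/
def ThirdOK (n : ℕ) (Θ g t τ X : ℝ) : Prop :=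
  X ≤ 0 ∨ ∃ m : ℕ, 3 ≤ m ∧ m ≤ 2 * n + 1 ∧ X * g ≤ Θ * (τ ^ m * t ^ (2 * n + 1 - m))

/-- the numbers at the end of the count.  `C₀` depends on `n` only, `L` is a parameter,
`β`, `C₁` may depend on `L`; `N₀ = |P|²`. -/
structure MainOutZ (n β L C₀ C₁ : ℕ) (ε₁ K t N₀ : ℝ) where
  /-- the distance of the first drop -/
  h : ℕ
  /-- the density of the vertex set -/
  z : ℝ
  /-- the contagion constant -/
  τ : ℝ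
  /-- number of good edges -/
  A : ℝ
  X₁ : ℝ
  X₂ : ℝ
  X₃ : ℝ
  /-- absorbed edges -/
  R : ℝ
  z_ge : t ^ (-ε₁) ≤ z
  z_le : z ≤ 1
  τ_pos : 0 < τ
  τ_le : τ ≤ (β : ℝ) ^ (C₀ * h + C₁) * (t * z ^ (3 / 5 : ℝ))
  rng : (β : ℝ) ^ (L * h) ≤ (β : ℝ) ^ C₁ * t
  /-- the start -/
  start : (z * N₀) ^ 2 ≤ τ * ((β : ℝ) ^ (C₀ * h + C₁) * A)
  /-- the count -/
  count : A ≤ X₁ + X₂ + X₃ + R
  rest : 2 * R ≤ A
  side₁ : SideOK n ((β : ℝ) ^ (C₀ * h + C₁)) ((β : ℝ) ^ (L * (h / 6))) K t z τ (z * N₀) X₁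
  side₂ : SideOK n ((β : ℝ) ^ (C₀ * h + C₁)) ((β : ℝ) ^ (L * (h / 6))) K t z τ (z * N₀) X₂
  third : ThirdOK n ((β : ℝ) ^ (C₀ * h + C₁)) ((β : ℝ) ^ (L * (h / 6))) t τ X₃

/-- exponents -/
theorem exp_leZ {q L C₀ C₁ h : ℕ} (hL : 6 * q * C₀ ≤ L) :
    q * (C₀ * h + C₁) ≤ L * (h / 6) + q * (5 * C₀ + C₁) := by
  obtain ⟨a, r, hr, hh⟩ : ∃ a r, r < 6 ∧ h = 6 * a + r :=
    ⟨h / 6, h % 6, Nat.mod_lt _ (by norm_num), (Nat.div_add_mod h 6).symm⟩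
  have hq : h / 6 = a := by omega
  rw [hq]
  have h1 : 6 * q * C₀ * a ≤ L * a := Nat.mul_le_mul_right _ hL
  have h2 : q * C₀ * r ≤ q * C₀ * 5 := Nat.mul_le_mul_left _ (by omega)
  calc q * (C₀ * h + C₁) = 6 * q * C₀ * a + q * C₀ * r + q * C₁ := by rw [hh]; ring
    _ ≤ L * a + q * C₀ * 5 + q * C₁ := by omega
    _ = _ := by ring

section bounds

variable {n : ℕ} {Θ g K t z τ N : ℝ}

/-- `τ^(n - σ + 1) t^σ ≤ Θ^(n+1) t^(n+1) z^(6/5)` for `σ < n` -/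
theorem tau_pow_le (hΘ : 1 ≤ Θ) (ht : 1 ≤ t) (hz : 0 < z) (hz1 : z ≤ 1) (hτ : 0 < τ)
    (hτ' : τ ≤ Θ * (t * z ^ (3 / 5 : ℝ))) {σ : ℕ} (hσ : σ < n) :
    τ ^ (n - σ + 1) * t ^ σ ≤ Θ ^ (n + 1) * t ^ (n + 1) * z ^ (6 / 5 : ℝ) := by
  have hz3 : (z ^ (3 / 5 : ℝ)) ≤ 1 := Real.rpow_le_one hz.le hz1 (by norm_num)
  have hz30 : 0 < z ^ (3 / 5 : ℝ) := Real.rpow_pos_of_pos hz _
  have hz6 : (z ^ (3 / 5 : ℝ)) ^ 2 = z ^ (6 / 5 : ℝ) := by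
    rw [← Real.rpow_natCast, ← Real.rpow_mul hz.le]; norm_num
  have ht0 : 0 < t := by linarith
  have hΘ0 : 0 < Θ := by linarith
  calc τ ^ (n - σ + 1) * t ^ σ ≤ (Θ * (t * z ^ (3 / 5 : ℝ))) ^ (n - σ + 1) * t ^ σ := by gcongr
    _ = Θ ^ (n - σ + 1) * (t ^ (n - σ + 1) * t ^ σ) * (z ^ (3 / 5 : ℝ)) ^ (n - σ + 1) := by
        rw [mul_pow, mul_pow]; ring
    _ = Θ ^ (n - σ + 1) * t ^ (n + 1) * (z ^ (3 / 5 : ℝ)) ^ (n - σ + 1) := by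
        rw [← pow_add]; congr 3; omega
    _ ≤ Θ ^ (n + 1) * t ^ (n + 1) * (z ^ (3 / 5 : ℝ)) ^ 2 := by
        have h1 : Θ ^ (n - σ + 1) ≤ Θ ^ (n + 1) := pow_le_pow_right₀ hΘ (by omega)
        have h2 : (z ^ (3 / 5 : ℝ)) ^ (n - σ + 1) ≤ (z ^ (3 / 5 : ℝ)) ^ 2 :=
          pow_le_pow_of_le_one hz30.le hz3 (by omega)
        gcongr
    _ = _ := by rw [hz6]

/-- the case `σ = n` -/
theorem side_top (hΘ : 1 ≤ Θ) (hK : 1 ≤ K) (ht : 1 ≤ t) (hz : 0 < z)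
    {ε₁ : ℝ} (hε : ε₁ ≤ 1 / 8) (hzt : t ^ (-ε₁) ≤ z) (hτ : 0 < τ)
    (hτ' : τ ≤ Θ * (t * z ^ (3 / 5 : ℝ))) (hN : z * (K ^ 2 * t ^ (n + 1)) ≤ N) {X : ℝ}
    (hX : X ≤ Θ * (N * (K * t ^ ((n : ℝ) - 1 / 4)))) :
    X * (τ * Θ) ≤ Θ ^ 3 * t ^ (-(1 / 5 : ℝ)) / K * N ^ 2 := by
  have ht0 : 0 < t := by linarith
  have hΘ0 : 0 < Θ := by linarith
  have hK0 : 0 < K := by linarith
  have hN0 : 0 < N := lt_of_lt_of_le (by positivity) hN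
  -- `z^(-2/5) ≤ t^(1/20)`
  have h1 : z ^ (3 / 5 : ℝ) ≤ t ^ (1 / 20 : ℝ) * z := by
    have h2 : t ^ (-(1 / 20 : ℝ)) ≤ z ^ (2 / 5 : ℝ) := by
      calc t ^ (-(1 / 20 : ℝ)) ≤ t ^ (-ε₁ * (2 / 5)) :=
            Real.rpow_le_rpow_of_exponent_le ht (by linarith)
        _ = (t ^ (-ε₁)) ^ (2 / 5 : ℝ) := Real.rpow_mul ht0.le _ _
        _ ≤ z ^ (2 / 5 : ℝ) := by gcongr
    have h3 : 1 ≤ t ^ (1 / 20 : ℝ) * z ^ (2 / 5 : ℝ) := by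
      calc (1 : ℝ) = t ^ (1 / 20 : ℝ) * t ^ (-(1 / 20 : ℝ)) := by
            rw [← Real.rpow_add ht0]; norm_num
        _ ≤ _ := by gcongr
    calc z ^ (3 / 5 : ℝ) = 1 * z ^ (3 / 5 : ℝ) := (one_mul _).symm
      _ ≤ (t ^ (1 / 20 : ℝ) * z ^ (2 / 5 : ℝ)) * z ^ (3 / 5 : ℝ) := by gcongr
      _ = t ^ (1 / 20 : ℝ) * (z ^ (2 / 5 : ℝ) * z ^ (3 / 5 : ℝ)) := by ring
      _ = t ^ (1 / 20 : ℝ) * z := by
          rw [← Real.rpow_add hz]; norm_num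
  have h4 : t ^ ((n : ℝ) - 1 / 4) * (t * t ^ (1 / 20 : ℝ)) = t ^ (n + 1) * t ^ (-(1 / 5 : ℝ)) := by
    rw [← Real.rpow_natCast t (n + 1), ← Real.rpow_one_add' ht0.le (by norm_num),
      ← Real.rpow_add ht0, ← Real.rpow_add ht0]
    congr 1; push_cast; ring
  have h5 : K * t ^ ((n : ℝ) - 1 / 4) * (t * z ^ (3 / 5 : ℝ)) ≤ t ^ (-(1 / 5 : ℝ)) / K * N := by
    calc K * t ^ ((n : ℝ) - 1 / 4) * (t * z ^ (3 / 5 : ℝ))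
        ≤ K * t ^ ((n : ℝ) - 1 / 4) * (t * (t ^ (1 / 20 : ℝ) * z)) := by gcongr
      _ = K * z * (t ^ ((n : ℝ) - 1 / 4) * (t * t ^ (1 / 20 : ℝ))) := by ring
      _ = K * z * (t ^ (n + 1) * t ^ (-(1 / 5 : ℝ))) := by rw [h4]
      _ = t ^ (-(1 / 5 : ℝ)) / K * (z * (K ^ 2 * t ^ (n + 1))) := by field_simp
      _ ≤ _ := by gcongr
  calc X * (τ * Θ) ≤ (Θ * (N * (K * t ^ ((n : ℝ) - 1 / 4)))) * (τ * Θ) := by gcongr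
    _ ≤ (Θ * (N * (K * t ^ ((n : ℝ) - 1 / 4)))) * (Θ * (t * z ^ (3 / 5 : ℝ)) * Θ) := by gcongr
    _ = Θ ^ 3 * N * (K * t ^ ((n : ℝ) - 1 / 4) * (t * z ^ (3 / 5 : ℝ))) := by ring
    _ ≤ Θ ^ 3 * N * (t ^ (-(1 / 5 : ℝ)) / K * N) := by gcongr
    _ = _ := by ring

/-- `σ < n`, gain in the degrees -/
theorem side_deg (hΘ : 1 ≤ Θ) (hg : 0 < g) (hK : 1 ≤ K) (ht : 1 ≤ t) (hz : 0 < z) (hz1 : z ≤ 1)
    (hτ : 0 < τ) (hτ' : τ ≤ Θ * (t * z ^ (3 / 5 : ℝ))) (hN : z * (K ^ 2 * t ^ (n + 1)) ≤ N)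
    {σ : ℕ} (hσ : σ < n) {X S D G : ℝ} (hS : 0 ≤ S) (hD : 0 ≤ D)
    (hX : X ≤ Θ * (S * D * (t ^ σ + G))) (hSN : S ≤ N)
    (hG : G ≤ Θ * (K * z ^ (-(1 / 15 : ℝ))) * t ^ σ) (hDg : D * g ≤ Θ * τ ^ (n - σ)) :
    X * (τ * Θ) ≤ 2 * Θ ^ (n + 5) / (K * g) * N ^ 2 := by
  have ht0 : 0 < t := by linarith
  have hΘ0 : 0 < Θ := by linarith
  have hK0 : 0 < K := by linarith
  have hN0 : 0 < N := lt_of_lt_of_le (by positivity) hN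
  set Y : ℝ := z ^ (-(1 / 15 : ℝ)) with hY
  have hY1 : 1 ≤ Y := Real.one_le_rpow_of_pos_of_le_one_of_nonpos hz hz1 (by norm_num)
  have h1 : t ^ σ + G ≤ 2 * (Θ * (K * Y)) * t ^ σ := by
    have h2 : 1 ≤ K * Y := by nlinarith
    have h3 : 1 ≤ Θ * (K * Y) := by nlinarith
    have h4 : t ^ σ ≤ Θ * (K * Y) * t ^ σ := le_mul_of_one_le_left (by positivity) h3
    linarith
  have h5 : Y * z ^ (6 / 5 : ℝ) ≤ z := by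
    rw [hY, ← Real.rpow_add hz]
    calc z ^ (-(1 / 15 : ℝ) + 6 / 5) ≤ z ^ (1 : ℝ) :=
          Real.rpow_le_rpow_of_exponent_ge hz hz1 (by norm_num)
      _ = z := Real.rpow_one z
  have h6 := tau_pow_le hΘ ht hz hz1 hτ hτ' hσ
  have h7 : D ≤ Θ * τ ^ (n - σ) / g := by rwa [le_div_iff₀ hg]
  calc X * (τ * Θ) ≤ (Θ * (S * D * (t ^ σ + G))) * (τ * Θ) := by gcongr
    _ ≤ (Θ * (S * D * (2 * (Θ * (K * Y)) * t ^ σ))) * (τ * Θ) := by gcongr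
    _ ≤ (Θ * (N * (Θ * τ ^ (n - σ) / g) * (2 * (Θ * (K * Y)) * t ^ σ))) * (τ * Θ) := by gcongr
    _ = 2 * Θ ^ 4 * (K * Y) * N / g * (τ ^ (n - σ + 1) * t ^ σ) := by rw [pow_succ τ]; ring
    _ ≤ 2 * Θ ^ 4 * (K * Y) * N / g * (Θ ^ (n + 1) * t ^ (n + 1) * z ^ (6 / 5 : ℝ)) := by gcongr
    _ = 2 * Θ ^ (n + 5) * K * N / g * t ^ (n + 1) * (Y * z ^ (6 / 5 : ℝ)) := by ring
    _ ≤ 2 * Θ ^ (n + 5) * K * N / g * t ^ (n + 1) * z := by gcongr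
    _ = 2 * Θ ^ (n + 5) / (K * g) * N * (z * (K ^ 2 * t ^ (n + 1))) := by field_simp
    _ ≤ 2 * Θ ^ (n + 5) / (K * g) * N * N := by gcongr
    _ = _ := by ring

/-- `σ < n`, gain in the number of vertices (Lemma V) -/
theorem side_vert (hΘ : 1 ≤ Θ) (hg : 0 < g) (hK : 1 ≤ K) (ht : 1 ≤ t) (hz : 0 < z) (hz1 : z ≤ 1)
    (hτ : 0 < τ) (hτ' : τ ≤ Θ * (t * z ^ (3 / 5 : ℝ))) (hN : z * (K ^ 2 * t ^ (n + 1)) ≤ N)
    {σ : ℕ} (hσ : σ < n) {X S D G : ℝ} (hS : 0 ≤ S) (hD : 0 ≤ D)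
    (hX : X ≤ Θ * (S * D * (t ^ σ + G))) (hSN : S ≤ N) (hDW : D ≤ Θ * τ ^ (n - σ))
    (hG : G ≤ Θ * (K * z ^ (-(1 / 15 : ℝ))) * t ^ σ)
    (hSg : S * g ≤ Θ * (K * (τ * t ^ n))) (hX0 : 0 ≤ X) :
    (X * (τ * Θ)) ^ 3 ≤ 8 * Θ ^ (3 * n + 17) / (K ^ 4 * g) * (N ^ 2) ^ 3 := by
  have ht0 : 0 < t := by linarith
  have hΘ0 : 0 < Θ := by linarith
  have hK0 : 0 < K := by linarith
  have hN0 : 0 < N := lt_of_lt_of_le (by positivity) hN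
  set Y : ℝ := z ^ (-(1 / 15 : ℝ)) with hY
  have hY1 : 1 ≤ Y := Real.one_le_rpow_of_pos_of_le_one_of_nonpos hz hz1 (by norm_num)
  have h1 : t ^ σ + G ≤ 2 * (Θ * (K * Y)) * t ^ σ := by
    have h2 : 1 ≤ K * Y := by nlinarith
    have h3 : 1 ≤ Θ * (K * Y) := by nlinarith
    have h4 : t ^ σ ≤ Θ * (K * Y) * t ^ σ := le_mul_of_one_le_left (by positivity) h3
    linarith
  have h6 := tau_pow_le hΘ ht hz hz1 hτ hτ' hσ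
  have h8 : Y ^ 3 * (z ^ (3 / 5 : ℝ) * (z ^ (6 / 5 : ℝ)) ^ 3) = z ^ 4 := by
    rw [hY, ← Real.rpow_natCast, ← Real.rpow_natCast, ← Real.rpow_natCast, ← Real.rpow_mul hz.le,
      ← Real.rpow_mul hz.le, ← Real.rpow_add hz, ← Real.rpow_add hz]
    norm_num
  have hS3 : S ^ 3 ≤ N ^ 2 * (Θ * (K * (τ * t ^ n)) / g) := by
    have h9 : S ≤ Θ * (K * (τ * t ^ n)) / g := by rwa [le_div_iff₀ hg]
    calc S ^ 3 = S ^ 2 * S := by ring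
      _ ≤ N ^ 2 * (Θ * (K * (τ * t ^ n)) / g) := by gcongr
  have hτn : τ * t ^ n ≤ Θ * t ^ (n + 1) * z ^ (3 / 5 : ℝ) := by
    calc τ * t ^ n ≤ (Θ * (t * z ^ (3 / 5 : ℝ))) * t ^ n := by gcongr
      _ = _ := by rw [pow_succ]; ring
  have h10 : X * (τ * Θ) ≤ 2 * Θ ^ 4 * (K * Y) * S * (τ ^ (n - σ + 1) * t ^ σ) := by
    calc X * (τ * Θ) ≤ (Θ * (S * D * (t ^ σ + G))) * (τ * Θ) := by gcongr
      _ ≤ (Θ * (S * D * (2 * (Θ * (K * Y)) * t ^ σ))) * (τ * Θ) := by gcongr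
      _ ≤ (Θ * (S * (Θ * τ ^ (n - σ)) * (2 * (Θ * (K * Y)) * t ^ σ))) * (τ * Θ) := by gcongr
      _ = _ := by rw [pow_succ τ]; ring
  calc (X * (τ * Θ)) ^ 3
      ≤ (2 * Θ ^ 4 * (K * Y) * S * (τ ^ (n - σ + 1) * t ^ σ)) ^ 3 := by gcongr
    _ = 8 * Θ ^ 12 * (K * Y) ^ 3 * S ^ 3 * (τ ^ (n - σ + 1) * t ^ σ) ^ 3 := by ring
    _ ≤ 8 * Θ ^ 12 * (K * Y) ^ 3 * (N ^ 2 * (Θ * (K * (Θ * t ^ (n + 1) * z ^ (3 / 5 : ℝ))) / g))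
          * (Θ ^ (n + 1) * t ^ (n + 1) * z ^ (6 / 5 : ℝ)) ^ 3 := by
        have : Θ * (K * (τ * t ^ n)) / g ≤ Θ * (K * (Θ * t ^ (n + 1) * z ^ (3 / 5 : ℝ))) / g := by
          gcongr
        have h11 : S ^ 3 ≤ N ^ 2 * (Θ * (K * (Θ * t ^ (n + 1) * z ^ (3 / 5 : ℝ))) / g) :=
          hS3.trans (by gcongr)
        gcongr
    _ = 8 * Θ ^ (3 * n + 17) * K ^ 4 * N ^ 2 / g * (t ^ (n + 1)) ^ 4
          * (Y ^ 3 * (z ^ (3 / 5 : ℝ) * (z ^ (6 / 5 : ℝ)) ^ 3)) := by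
        have e1 : Θ ^ (3 * n + 17) = Θ ^ 12 * (Θ * Θ) * (Θ ^ (n + 1)) ^ 3 := by
          rw [← pow_mul]; ring
        rw [e1]; ring
    _ = 8 * Θ ^ (3 * n + 17) * K ^ 4 * N ^ 2 / g * (t ^ (n + 1)) ^ 4 * z ^ 4 := by rw [h8]
    _ = 8 * Θ ^ (3 * n + 17) / (K ^ 4 * g) * N ^ 2 * (z * (K ^ 2 * t ^ (n + 1))) ^ 4 := by
        field_simp
    _ ≤ 8 * Θ ^ (3 * n + 17) / (K ^ 4 * g) * N ^ 2 * N ^ 4 := by gcongr
    _ = _ := by ring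

/-- the third term -/
theorem third_le (hΘ : 1 ≤ Θ) (hg : 0 < g) (hK : 1 ≤ K) (ht : 1 ≤ t) (hz : 0 < z) (hz1 : z ≤ 1)
    (hτ : 0 < τ) (hτ' : τ ≤ Θ * (t * z ^ (3 / 5 : ℝ))) (hN : z * (K ^ 2 * t ^ (n + 1)) ≤ N)
    {m : ℕ} (hm : 3 ≤ m) (hm' : m ≤ 2 * n + 1) {X : ℝ}
    (hX : X * g ≤ Θ * (τ ^ m * t ^ (2 * n + 1 - m))) :
    X * (τ * Θ) ≤ Θ ^ (2 * n + 4) / (K ^ 4 * g) * N ^ 2 := by
  have ht0 : 0 < t := by linarith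
  have hΘ0 : 0 < Θ := by linarith
  have hK0 : 0 < K := by linarith
  have hN0 : 0 < N := lt_of_lt_of_le (by positivity) hN
  have hz3 : (z ^ (3 / 5 : ℝ)) ≤ 1 := Real.rpow_le_one hz.le hz1 (by norm_num)
  have hz30 : 0 < z ^ (3 / 5 : ℝ) := Real.rpow_pos_of_pos hz _
  have hz4 : (z ^ (3 / 5 : ℝ)) ^ 4 ≤ z ^ 2 := by
    rw [← Real.rpow_natCast, ← Real.rpow_mul hz.le, ← Real.rpow_natCast z 2]
    exact Real.rpow_le_rpow_of_exponent_ge hz hz1 (by norm_num)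
  have h1 : τ ^ (m + 1) * t ^ (2 * n + 1 - m) ≤ Θ ^ (2 * n + 2) * (t ^ (n + 1)) ^ 2 * z ^ 2 := by
    calc τ ^ (m + 1) * t ^ (2 * n + 1 - m)
        ≤ (Θ * (t * z ^ (3 / 5 : ℝ))) ^ (m + 1) * t ^ (2 * n + 1 - m) := by gcongr
      _ = Θ ^ (m + 1) * (t ^ (m + 1) * t ^ (2 * n + 1 - m)) * (z ^ (3 / 5 : ℝ)) ^ (m + 1) := by
          rw [mul_pow, mul_pow]; ring
      _ = Θ ^ (m + 1) * (t ^ (n + 1)) ^ 2 * (z ^ (3 / 5 : ℝ)) ^ (m + 1) := by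
          rw [← pow_add, ← pow_mul]; congr 3; omega
      _ ≤ Θ ^ (2 * n + 2) * (t ^ (n + 1)) ^ 2 * (z ^ (3 / 5 : ℝ)) ^ 4 := by
          have h2 : Θ ^ (m + 1) ≤ Θ ^ (2 * n + 2) := pow_le_pow_right₀ hΘ (by omega)
          have h3 : (z ^ (3 / 5 : ℝ)) ^ (m + 1) ≤ (z ^ (3 / 5 : ℝ)) ^ 4 :=
            pow_le_pow_of_le_one hz30.le hz3 (by omega)
          gcongr
      _ ≤ _ := by gcongr
  have h7 : X ≤ Θ * (τ ^ m * t ^ (2 * n + 1 - m)) / g := by rwa [le_div_iff₀ hg]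
  calc X * (τ * Θ) ≤ (Θ * (τ ^ m * t ^ (2 * n + 1 - m)) / g) * (τ * Θ) := by gcongr
    _ = Θ ^ 2 / g * (τ ^ (m + 1) * t ^ (2 * n + 1 - m)) := by rw [pow_succ τ]; ring
    _ ≤ Θ ^ 2 / g * (Θ ^ (2 * n + 2) * (t ^ (n + 1)) ^ 2 * z ^ 2) := by gcongr
    _ = Θ ^ (2 * n + 4) / (K ^ 4 * g) * (z * (K ^ 2 * t ^ (n + 1))) ^ 2 := by
        field_simp
        ring
    _ ≤ _ := by gcongr

end bounds

/-- `a Θ^i ≤ b K g` from `Θ^i ≤ Q g` and `a Q ≤ b K` -/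
theorem mul_le_of_le {Θi Q g K a b : ℝ} (hg : 0 < g) (ha : 0 ≤ a) (h1 : Θi ≤ Q * g)
    (h2 : a * Q ≤ b * K) : a * Θi ≤ b * (K * g) := by
  calc a * Θi ≤ a * (Q * g) := by gcongr
    _ = (a * Q) * g := by ring
    _ ≤ (b * K) * g := by gcongr
    _ = _ := by ring

/-- **END**: the numbers do not exist if `L ≥ 6 (3 n + 17) C₀` and `K` is large -/
theorem no_mainOutZ {n β L C₀ C₁ : ℕ} {ε₁ K t N₀ : ℝ} (hβ : 2 ≤ β)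
    (hL : 6 * (3 * n + 17) * C₀ ≤ L) (hε : ε₁ ≤ 1 / 8) (ht : 1 ≤ t)
    (hN : K ^ 2 * t ^ (n + 1) ≤ N₀) (hK1 : 1 ≤ K)
    (hK : 4096 * (β : ℝ) ^ ((3 * n + 17) * (5 * C₀ + C₁) + 4 * C₁) ≤ K)
    (M : MainOutZ n β L C₀ C₁ ε₁ K t N₀) : False := by
  obtain ⟨h, z, τ, A, X₁, X₂, X₃, R, z_ge, z_le, τ_pos, τ_le, rng, start, count, rest, side₁, side₂,
    third⟩ := M
  have hβ1 : (1 : ℝ) ≤ β := by exact_mod_cast (by omega : 1 ≤ β)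
  have hβ0 : (0 : ℝ) < β := by linarith
  have ht0 : 0 < t := by linarith
  have hz : 0 < z := lt_of_lt_of_le (Real.rpow_pos_of_pos ht0 _) z_ge
  set Θ : ℝ := (β : ℝ) ^ (C₀ * h + C₁) with hΘdef
  set g : ℝ := (β : ℝ) ^ (L * (h / 6)) with hgdef
  set N : ℝ := z * N₀ with hNdef
  set Q : ℝ := (β : ℝ) ^ ((3 * n + 17) * (5 * C₀ + C₁) + 4 * C₁) with hQ
  have hK0 : 0 < K := by linarith
  have hΘ1 : 1 ≤ Θ := one_le_pow₀ hβ1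
  have hΘ0 : 0 < Θ := by linarith
  have hg0 : 0 < g := by positivity
  have hQ1 : 1 ≤ Q := one_le_pow₀ hβ1
  have hN' : z * (K ^ 2 * t ^ (n + 1)) ≤ N := by rw [hNdef]; gcongr
  have hNpos : 0 < N := lt_of_lt_of_le (by positivity) hN'
  -- `Θ^q ≤ Q g`
  have hΘq : Θ ^ (3 * n + 17) ≤ Q * g := by
    rw [hΘdef, hQ, hgdef, ← pow_mul, ← pow_add]
    apply pow_le_pow_right₀ hβ1
    have := exp_leZ (C₁ := C₁) (h := h) hL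
    calc (C₀ * h + C₁) * (3 * n + 17) = (3 * n + 17) * (C₀ * h + C₁) := by ring
      _ ≤ L * (h / 6) + (3 * n + 17) * (5 * C₀ + C₁) := this
      _ ≤ _ := by omega
  have hQK : 4096 * Q ≤ K := hK
  have hK4 : 0 < K ^ 4 := by positivity
  have hQK4 : 4096 * Q ≤ K ^ 4 := by
    calc 4096 * Q ≤ K := hK
      _ = K * 1 ^ 3 := by ring
      _ ≤ K * K ^ 3 := by gcongr
      _ = K ^ 4 := by ring
  -- `Θ³ ≤ Q t^(1/5)`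
  have hΘt : Θ ^ 3 * t ^ (-(1 / 5 : ℝ)) ≤ Q := by
    have h1 : Θ ^ 15 ≤ Q ^ 5 * t := by
      have h2 : Θ ^ 15 ≤ (β : ℝ) ^ (L * h) * (β : ℝ) ^ (15 * C₁) := by
        rw [hΘdef, ← pow_mul, ← pow_add]
        apply pow_le_pow_right₀ hβ1
        have h3 : 15 * C₀ ≤ L := by
          refine le_trans ?_ hL
          calc 15 * C₀ ≤ 102 * C₀ := by omega
            _ ≤ _ := Nat.mul_le_mul_right _ (by omega)
        have h4 : 15 * C₀ * h ≤ L * h := Nat.mul_le_mul_right _ h3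
        calc (C₀ * h + C₁) * 15 = 15 * C₀ * h + 15 * C₁ := by ring
          _ ≤ _ := by omega
      calc Θ ^ 15 ≤ (β : ℝ) ^ (L * h) * (β : ℝ) ^ (15 * C₁) := h2
        _ ≤ ((β : ℝ) ^ C₁ * t) * (β : ℝ) ^ (15 * C₁) := by gcongr
        _ = (β : ℝ) ^ (16 * C₁) * t := by
            have : (β : ℝ) ^ (16 * C₁) = (β : ℝ) ^ C₁ * (β : ℝ) ^ (15 * C₁) := by
              rw [← pow_add]; congr 1; ring
            rw [this]; ring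
        _ ≤ Q ^ 5 * t := by
            have : (β : ℝ) ^ (16 * C₁) ≤ Q ^ 5 := by
              rw [hQ, ← pow_mul]
              apply pow_le_pow_right₀ hβ1
              have : 0 ≤ (3 * n + 17) * (5 * C₀ + C₁) := Nat.zero_le _
              omega
            gcongr
    have h5 : (Θ ^ 3 * t ^ (-(1 / 5 : ℝ))) ^ 5 ≤ Q ^ 5 := by
      have h6 : (t ^ (-(1 / 5 : ℝ))) ^ 5 = t⁻¹ := by
        rw [← Real.rpow_natCast, ← Real.rpow_mul ht0.le, ← Real.rpow_neg_one]; norm_num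
      calc (Θ ^ 3 * t ^ (-(1 / 5 : ℝ))) ^ 5 = Θ ^ 15 * (t ^ (-(1 / 5 : ℝ))) ^ 5 := by ring
        _ = Θ ^ 15 * t⁻¹ := by rw [h6]
        _ ≤ (Q ^ 5 * t) * t⁻¹ := by gcongr
        _ = Q ^ 5 := by field_simp
    exact le_of_pow_le_pow_left₀ (by norm_num) (by linarith) h5
  -- one side
  have side : ∀ X : ℝ, SideOK n Θ g K t z τ N X → X * (τ * Θ) ≤ 1 / 8 * N ^ 2 := by
    intro X hX
    rcases le_or_gt X 0 with hX0 | hX0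
    · have : X * (τ * Θ) ≤ 0 := mul_nonpos_of_nonpos_of_nonneg hX0 (by positivity)
      exact this.trans (by positivity)
    rcases hX with hX | ⟨σ, hσ, S, D, G, hS, hD, hX, hSN, hDW, hG, hgain⟩
    · refine (side_top hΘ1 hK1 ht hz hε z_ge τ_pos τ_le hN' hX).trans ?_
      have h1 : Θ ^ 3 * t ^ (-(1 / 5 : ℝ)) / K ≤ 1 / 8 := by
        rw [div_le_iff₀ hK0]; linarith only [hΘt, hQK, hQ1, hK0]
      gcongr
    · rcases hgain with hgain | hgain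
      · refine (side_deg hΘ1 hg0 hK1 ht hz z_le τ_pos τ_le hN' hσ hS hD hX hSN hG hgain).trans ?_
        have h1 : 2 * Θ ^ (n + 5) / (K * g) ≤ 1 / 8 := by
          rw [div_le_iff₀ (by positivity)]
          have h2 : Θ ^ (n + 5) ≤ Θ ^ (3 * n + 17) := pow_le_pow_right₀ hΘ1 (by omega)
          exact mul_le_of_le hg0 (by norm_num) (h2.trans hΘq) (by linarith only [hQK, hK0])
        gcongr
      · have h1 := side_vert hΘ1 hg0 hK1 ht hz z_le τ_pos τ_le hN' hσ hS hD hX hSN hDW hG hgain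
          hX0.le
        have h2 : 8 * Θ ^ (3 * n + 17) / (K ^ 4 * g) ≤ (1 / 8) ^ 3 := by
          rw [div_le_iff₀ (by positivity)]
          exact mul_le_of_le hg0 (by norm_num) hΘq (by linarith only [hQK4, hK4])
        have h3 : (X * (τ * Θ)) ^ 3 ≤ (1 / 8 * N ^ 2) ^ 3 := by
          calc (X * (τ * Θ)) ^ 3 ≤ 8 * Θ ^ (3 * n + 17) / (K ^ 4 * g) * (N ^ 2) ^ 3 := h1
            _ ≤ (1 / 8) ^ 3 * (N ^ 2) ^ 3 := by gcongr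
            _ = _ := by ring
        exact le_of_pow_le_pow_left₀ (by norm_num) (by positivity) h3
  have s1 := side X₁ side₁
  have s2 := side X₂ side₂
  have s3 : X₃ * (τ * Θ) ≤ 1 / 8 * N ^ 2 := by
    rcases third with h0 | ⟨m, hm, hm', hX⟩
    · have : X₃ * (τ * Θ) ≤ 0 := mul_nonpos_of_nonpos_of_nonneg h0 (by positivity)
      exact this.trans (by positivity)
    · refine (third_le hΘ1 hg0 hK1 ht hz z_le τ_pos τ_le hN' hm hm' hX).trans ?_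
      have h1 : Θ ^ (2 * n + 4) / (K ^ 4 * g) ≤ 1 / 8 := by
        rw [div_le_iff₀ (by positivity), ← one_mul (Θ ^ (2 * n + 4))]
        have h2 : Θ ^ (2 * n + 4) ≤ Θ ^ (3 * n + 17) := pow_le_pow_right₀ hΘ1 (by omega)
        exact mul_le_of_le hg0 (by norm_num) (h2.trans hΘq) (by linarith only [hQK4, hK4])
      gcongr
  have hA : A ≤ 2 * (X₁ + X₂ + X₃) := by linarith
  have hAτ : A * (τ * Θ) ≤ 2 * (X₁ + X₂ + X₃) * (τ * Θ) := by gcongr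
  have hst : N ^ 2 ≤ A * (τ * Θ) := by
    calc N ^ 2 ≤ τ * (Θ * A) := start
      _ = A * (τ * Θ) := by ring
  have : N ^ 2 ≤ 3 / 4 * N ^ 2 := by
    calc N ^ 2 ≤ 2 * (X₁ + X₂ + X₃) * (τ * Θ) := hst.trans hAτ
      _ = 2 * (X₁ * (τ * Θ) + X₂ * (τ * Θ) + X₃ * (τ * Θ)) := by ring
      _ ≤ 2 * (1 / 8 * N ^ 2 + 1 / 8 * N ^ 2 + 1 / 8 * N ^ 2) := by gcongr
      _ = _ := by ring
  have : 0 < N ^ 2 := by positivity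
  linarith

/-- **what the assembly has to prove in dimension `n + 1`** -/
def MainIneqZ (n : ℕ) : Prop :=
  ∃ C₀ : ℕ, ∃ ε₁ : ℝ, ε₁ ≤ 1 / 8 ∧ ∃ L₀ : ℕ, ∀ L : ℕ, L₀ ≤ L →
    ∀ C : ℝ, 2 ≤ C → ∃ β C₁ : ℕ, 2 ≤ β ∧ ∃ K₀ : ℝ, ∀ K : ℝ, K₀ ≤ K → 1 ≤ K → ∃ t₀ : ℕ,
      ∀ t : ℕ, t₀ ≤ t → 1 ≤ t → ∀ P : Finset (E n), (dists P).card ≤ t →
        K * (t : ℝ) ^ (((n + 1 : ℕ) : ℝ) / 2) ≤ P.card →
        (P.card : ℝ) ≤ 2 * (K * (t : ℝ) ^ (((n + 1 : ℕ) : ℝ) / 2)) →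
        IsoBL n P (fun σ => ⌊C * K * (t : ℝ) ^ σ⌋₊) →
        Nonempty (MainOutZ n β L C₀ C₁ ε₁ K t ((P.card : ℝ) ^ 2))

/-- **END** -/
theorem stepL_of_mainIneqZ {n : ℕ} (h : MainIneqZ n) : StepL n := by
  obtain ⟨C₀, ε₁, hε₁, L₀, h⟩ := h
  intro C hC
  obtain ⟨β, C₁, hβ, K₀, h⟩ := h (max L₀ (6 * (3 * n + 17) * C₀)) (le_max_left _ _) C hC
  refine ⟨max K₀ (4096 * (β : ℝ) ^ ((3 * n + 17) * (5 * C₀ + C₁) + 4 * C₁)), fun K hK hK1 => ?_⟩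
  obtain ⟨t₀, h⟩ := h K ((le_max_left _ _).trans hK) hK1
  refine ⟨t₀, fun t ht ht1 P hP h1 h2 h3 => ?_⟩
  obtain ⟨M⟩ := h t ht ht1 P hP h1 h2 h3
  have ht1' : (1 : ℝ) ≤ t := by exact_mod_cast ht1
  have ht0 : (0 : ℝ) ≤ t := by linarith
  have hN : K ^ 2 * (t : ℝ) ^ (n + 1) ≤ (P.card : ℝ) ^ 2 := by
    have h4 : ((t : ℝ) ^ (((n + 1 : ℕ) : ℝ) / 2)) ^ 2 = (t : ℝ) ^ (n + 1) := by
      rw [← Real.rpow_natCast, ← Real.rpow_mul ht0]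
      rw [← Real.rpow_natCast]
      congr 1
      push_cast
      ring
    rw [← h4, ← mul_pow]
    gcongr
  exact no_mainOutZ hβ (le_max_right _ _) hε₁ ht1' hN hK1 ((le_max_right _ _).trans hK) M

end Vale.Agent.P054.T3.H854
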