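import Vale.Agent.P054.T3.H854.MainN
import Vale.Agent.P054.T3.H190.StartG
import Vale.Agent.P054.T3.H499.PSHypEmpty

set_option autoImplicit false
set_option linter.all false

/-!
# P054 / T3: `StartPS n` from the extremal set (START), the planar block and the boundary regime

`ε₁ ≤ 1 / 8` is chosen by the planar block; boundary regime: `|S| < t ^ (-ε₁/2) |P|²`.
-/

namespace Vale.Agent.P054.T3.H854

open Finset
open Vale.Agent.P054I Vale.Agent.P054K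
open Vale.Agent.P054.T2 Vale.Agent.P054.T2.SecC
open Vale.Agent.P054.T2.H307 (Ed)
open Vale.Agent.P054.T2.H686 (Qf E dists Ez Gm zt zt_injective)
open Vale.Agent.P054.T3.H533 (MuK)
open Vale.Agent.P054.T3.H190 (W adjE E1z)
open Vale.Agent.P054.T3.H461 (PSHyp CC0 CC2)

/-- **the planar block in the upper regime** `t ^ (-ε₁/2) |P|² ≤ |S|`: `Θ = β ^ (CC0 n h + CC2 n L)`,
threshold `Cp Θ ^ ap t`, pruning factor `Cp Θ ^ ap`, remaining edges `W / (8 Θ)` -/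
def PSUp (n : ℕ) : Prop :=
  ∃ ε₁ : ℝ, 0 < ε₁ ∧ ε₁ ≤ 1 / 8 ∧ ∀ Λ₁ : ℕ, 1 ≤ Λ₁ → ∃ Cp ap L₀ : ℕ, ∀ L : ℕ, L₀ ≤ L → ∃ β₁ : ℕ, ∀ β : ℕ, β₁ ≤ β →
    ∀ K : ℝ, 1 ≤ K → ∃ t₀ : ℕ, ∀ t : ℕ, t₀ ≤ t → 1 ≤ t → ∀ P : Finset (E n),
      (dists P).card ≤ t → K * (t : ℝ) ^ (((n + 1 : ℕ) : ℝ) / 2) ≤ P.card →
      (P.card : ℝ) ≤ 2 * (K * (t : ℝ) ^ (((n + 1 : ℕ) : ℝ) / 2)) →
      ∀ (B : E n ≃ₗᵢ[ℝ] E n) (S : Finset (E n × E n)) (τ ell : ℕ), Gm P B → S ⊆ P ×ˢ P →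
      (t : ℝ) ^ (-(ε₁ / 2)) * (P.card : ℝ) ^ 2 ≤ S.card →
      (∀ T ⊆ S, (t : ℝ) ^ (-ε₁) * (P.card : ℝ) ^ 2 ≤ T.card →
        (W adjE T : ℝ) * (S.card : ℝ) ^ ((7 : ℝ) / 5) ≤
          (W adjE S : ℝ) * (T.card : ℝ) ^ ((7 : ℝ) / 5)) →
      (β ^ L) ^ ell ≤ τ → τ ≤ (β ^ L) ^ (ell + 1) → τ ≤ Λ₁ * t →
      PSHyp n P B (E1z B S) τ ell (fun h => β ^ (CC0 n * h + CC2 n L))
        (fun h => Cp * (β ^ (CC0 n * h + CC2 n L)) ^ ap * t)
        (fun h => Cp * (β ^ (CC0 n * h + CC2 n L)) ^ ap)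
        (fun h => W adjE S / (8 * β ^ (CC0 n * h + CC2 n L)))

/-- **`StartPS n`** -/
theorem startPS_of {n : ℕ} (hn : 3 ≤ n) (hU : PSUp n) : StartPS n := by
  classical
  obtain ⟨ε₁, hε0, hε8, hU⟩ := hU
  obtain ⟨C, hC, hlow⟩ := Vale.Agent.P054.T3.H499.exists_psHyp_empty n (ε₁ / 30) (by linarith)
  obtain ⟨Cp, ap, L₀, hU⟩ := hU (2 ^ 17) (by norm_num)
  refine ⟨2 ^ 17, ap * CC0 n, by norm_num, ε₁, hε8, max L₀ 1, fun L hL => ?_⟩
  have hL1 : 1 ≤ L := (le_max_right _ _).trans hL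
  obtain ⟨β₁, hU⟩ := hU L ((le_max_left _ _).trans hL)
  refine ⟨max β₁ (2 + 2 * ⌈C⌉₊ + Cp), fun β hβ => ?_⟩
  have hβ1 : β₁ ≤ β := (le_max_left _ _).trans hβ
  have hβ2 : 2 + 2 * ⌈C⌉₊ + Cp ≤ β := (le_max_right _ _).trans hβ
  refine ⟨ap * CC2 n L + 2, fun K hK => ?_⟩
  obtain ⟨t₀, hU⟩ := hU β hβ1 K hK
  refine ⟨max t₀ 1024, fun t ht ht1 P hP hP1 hP2 => ?_⟩
  have ht0' : t₀ ≤ t := (le_max_left _ _).trans ht
  have ht1024 : 1024 ≤ t := (le_max_right _ _).trans ht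
  have htr : (1 : ℝ) ≤ t := by exact_mod_cast ht1
  have ht0 : (0 : ℝ) < t := by linarith
  have hK0 : 0 < K := by linarith
  have hβr : (1 : ℝ) ≤ β := by exact_mod_cast (by omega : 1 ≤ β)
  -- `P` is large
  have hPt : 256 * (2 * t + 1) ≤ P.card := by
    have h1 : (t : ℝ) ^ (2 : ℕ) ≤ (t : ℝ) ^ (((n + 1 : ℕ) : ℝ) / 2) := by
      rw [← Real.rpow_natCast]
      apply Real.rpow_le_rpow_of_exponent_le htr
      have : (3 : ℝ) ≤ n := by exact_mod_cast hn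
      push_cast
      linarith
    have h2 : ((t ^ 2 : ℕ) : ℝ) ≤ P.card := by
      push_cast
      calc (t : ℝ) ^ 2 ≤ (t : ℝ) ^ (((n + 1 : ℕ) : ℝ) / 2) := h1
        _ ≤ K * (t : ℝ) ^ (((n + 1 : ℕ) : ℝ) / 2) := le_mul_of_one_le_left (by positivity) hK
        _ ≤ _ := hP1
    have h3 : t ^ 2 ≤ P.card := by exact_mod_cast h2
    nlinarith
  obtain ⟨B, hB⟩ := Vale.Agent.P054.T2.H686.exists_Gm P
  obtain ⟨S, hS, z, τ, hSne, hSz, hz, hz1, hτ1, hst, hτ, hW1, hext⟩ :=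
    Vale.Agent.P054.T3.H190.exists_startG hP ht1 hPt (ε₁ := ε₁) hε0.le (by linarith)
  have hz0 : 0 < z := lt_of_lt_of_le (Real.rpow_pos_of_pos ht0 _) hz
  have hz35 : z ^ (3 / 5 : ℝ) ≤ 1 := Real.rpow_le_one hz0.le hz1 (by norm_num)
  have hz15 : 1 ≤ z ^ (-(1 / 15 : ℝ)) :=
    Real.one_le_rpow_of_pos_of_le_one_of_nonpos hz0 hz1 (by norm_num)
  have hP0 : (0 : ℝ) < (P.card : ℝ) ^ 2 := by
    have : 0 < P.card := lt_of_lt_of_le (by positivity) hPt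
    positivity
  have hb : 1 < β ^ L := Nat.one_lt_pow (by omega) (by omega)
  obtain ⟨ell, hell⟩ : ∃ ell : ℕ, ell = Nat.log (β ^ L) τ := ⟨_, rfl⟩
  have hell1 : (β ^ L) ^ ell ≤ τ := by
    rw [hell]; exact Nat.pow_log_le_self _ (by omega)
  have hell2 : τ ≤ (β ^ L) ^ (ell + 1) := by
    rw [hell]; exact (Nat.lt_pow_succ_log_self hb _).le
  have hτt : τ ≤ 2 ^ 17 * t := by
    have h1 : (τ : ℝ) ≤ 2 ^ 17 * t := by
      calc (τ : ℝ) ≤ 2 ^ 17 * (t * z ^ (3 / 5 : ℝ)) := hτ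
        _ ≤ 2 ^ 17 * (t * 1) := by gcongr
        _ = _ := by ring
    exact_mod_cast h1
  have hE0 : (E1z B S).card = W adjE S := Vale.Agent.P054.T3.H190.card_E1z B S
  have hne : (E1z B S).Nonempty := Finset.card_pos.1 (by omega)
  have hsub : E1z B S ⊆ Ez P B P.card := Vale.Agent.P054.T3.H190.E1z_subset B hS
  rcases le_or_gt ((t : ℝ) ^ (-(ε₁ / 2))) z with hzc | hzc
  · -- upper regime
    have hS16 : (t : ℝ) ^ (-(ε₁ / 2)) * (P.card : ℝ) ^ 2 ≤ S.card := by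
      rw [hSz]; gcongr
    have hps := hU t ht0' ht1 P hP hP1 hP2 B S τ ell hB hS hS16 hext hell1 hell2 hτt
    refine ⟨⟨B, P.card, S, E1z B S, τ, ell, z, _, _, _, hB, hS, hne, hsub,
      fun e he => Vale.Agent.P054.T3.H190.E1z_fst he, fun e he => Vale.Agent.P054.T3.H190.E1z_snd he,
      Vale.Agent.P054.T3.H190.muK_E1z hB (by omega) hS,
      Vale.Agent.P054.T3.H190.muK_swp_E1z hB (by omega) hS, hSz, hz, ?_, ?_, hell1, hell2, hps,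
      ?_, ?_, ?_⟩⟩
    · rw [hE0, ← sq]; exact hst
    · refine hτ.trans (le_of_eq ?_); push_cast; norm_num
    · intro h _
      have h1 : Cp * (β ^ (CC0 n * h + CC2 n L)) ^ ap ≤ β ^ (ap * CC0 n * h + (ap * CC2 n L + 2)) := by
        calc Cp * (β ^ (CC0 n * h + CC2 n L)) ^ ap ≤ β ^ 1 * (β ^ (CC0 n * h + CC2 n L)) ^ ap := by
              rw [pow_one]; exact Nat.mul_le_mul_right _ (by omega)
          _ = β ^ (1 + (CC0 n * h + CC2 n L) * ap) := by rw [← pow_mul, ← pow_add]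
          _ ≤ _ := Nat.pow_le_pow_right (by omega) (by ring_nf; omega)
      have h2 : ((Cp * (β ^ (CC0 n * h + CC2 n L)) ^ ap : ℕ) : ℝ) ≤
          (β : ℝ) ^ (ap * CC0 n * h + (ap * CC2 n L + 2)) := by exact_mod_cast h1
      have h3 : 1 ≤ K * z ^ (-(1 / 15 : ℝ)) := by nlinarith
      calc ((Cp * (β ^ (CC0 n * h + CC2 n L)) ^ ap * t : ℕ) : ℝ)
          = ((Cp * (β ^ (CC0 n * h + CC2 n L)) ^ ap : ℕ) : ℝ) * 1 * t := by push_cast; ring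
        _ ≤ (β : ℝ) ^ (ap * CC0 n * h + (ap * CC2 n L + 2)) * (K * z ^ (-(1 / 15 : ℝ))) * t := by
            gcongr
    · intro h _
      have h0 : 1 ≤ (β ^ (CC0 n * h + CC2 n L)) ^ ap :=
        Nat.one_le_pow _ _ (Nat.pow_pos (by omega))
      calc Cp * (β ^ (CC0 n * h + CC2 n L)) ^ ap + 1
          ≤ (Cp + 1) * (β ^ (CC0 n * h + CC2 n L)) ^ ap := by nlinarith
        _ ≤ β ^ 1 * (β ^ (CC0 n * h + CC2 n L)) ^ ap := by
            rw [pow_one]; exact Nat.mul_le_mul_right _ (by omega)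
        _ = β ^ (1 + (CC0 n * h + CC2 n L) * ap) := by rw [← pow_mul, ← pow_add]
        _ ≤ _ := Nat.pow_le_pow_right (by omega) (by ring_nf; omega)
    · intro h _
      rw [hE0]
      calc 4 * (W adjE S / (8 * β ^ (CC0 n * h + CC2 n L)) * β ^ (CC0 n * h + CC2 n L))
          ≤ W adjE S / (8 * β ^ (CC0 n * h + CC2 n L)) * (8 * β ^ (CC0 n * h + CC2 n L)) := by
            rw [← mul_assoc, ← mul_assoc, mul_comm 4]
            exact Nat.mul_le_mul_right _ (Nat.mul_le_mul_left _ (by norm_num))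
        _ ≤ W adjE S := Nat.div_mul_le_self _ _
  · -- boundary regime
    have hps := hlow t P ht1 hP B P.card (E1z B S) hsub τ ell
      (fun h => β ^ (CC0 n * h + CC2 n L)) (fun _ => ⌈C * (t : ℝ) ^ (1 + ε₁ / 30)⌉₊)
      (fun _ => 0) (fun _ => 0) (fun h _ => Nat.le_ceil _)
    refine ⟨⟨B, P.card, S, E1z B S, τ, ell, z, _, _, _, hB, hS, hne, hsub,
      fun e he => Vale.Agent.P054.T3.H190.E1z_fst he, fun e he => Vale.Agent.P054.T3.H190.E1z_snd he,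
      Vale.Agent.P054.T3.H190.muK_E1z hB (by omega) hS,
      Vale.Agent.P054.T3.H190.muK_swp_E1z hB (by omega) hS, hSz, hz, ?_, ?_, hell1, hell2, hps,
      ?_, ?_, ?_⟩⟩
    · rw [hE0, ← sq]; exact hst
    · refine hτ.trans (le_of_eq ?_); push_cast; norm_num
    · intro h _
      have h1 : (t : ℝ) ^ (ε₁ / 30) ≤ z ^ (-(1 / 15 : ℝ)) := by
        have h2 : z ^ (1 / 15 : ℝ) ≤ ((t : ℝ) ^ (-(ε₁ / 2))) ^ (1 / 15 : ℝ) :=
          Real.rpow_le_rpow hz0.le hzc.le (by norm_num)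
        have h3 : ((t : ℝ) ^ (-(ε₁ / 2))) ^ (1 / 15 : ℝ) = ((t : ℝ) ^ (ε₁ / 30))⁻¹ := by
          rw [← Real.rpow_mul ht0.le, ← Real.rpow_neg ht0.le]; congr 1; ring
        rw [h3] at h2
        rw [Real.rpow_neg hz0.le]
        rw [le_inv_comm₀ (Real.rpow_pos_of_pos ht0 _) (Real.rpow_pos_of_pos hz0 _)]
        exact h2
      have h4 : 2 * C ≤ (β : ℝ) ^ (ap * CC0 n * h + (ap * CC2 n L + 2)) := by
        calc 2 * C ≤ 2 * ⌈C⌉₊ := by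
              have := Nat.le_ceil C
              linarith
          _ ≤ β := by exact_mod_cast (by omega : 2 * ⌈C⌉₊ ≤ β)
          _ = (β : ℝ) ^ 1 := (pow_one _).symm
          _ ≤ _ := pow_le_pow_right₀ hβr (by omega)
      have h5 : (1 : ℝ) ≤ (t : ℝ) ^ (1 + ε₁ / 30) := Real.one_le_rpow htr (by linarith)
      have h6 : (1 : ℝ) ≤ C * (t : ℝ) ^ (1 + ε₁ / 30) := by nlinarith
      calc ((⌈C * (t : ℝ) ^ (1 + ε₁ / 30)⌉₊ : ℕ) : ℝ) ≤ C * (t : ℝ) ^ (1 + ε₁ / 30) + 1 :=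
            (Nat.ceil_lt_add_one (by linarith)).le
        _ ≤ 2 * (C * (t : ℝ) ^ (1 + ε₁ / 30)) := by linarith
        _ = 2 * C * (1 * (t : ℝ) ^ (ε₁ / 30)) * t := by
            rw [Real.rpow_add ht0, Real.rpow_one]; ring
        _ ≤ (β : ℝ) ^ (ap * CC0 n * h + (ap * CC2 n L + 2)) * (K * z ^ (-(1 / 15 : ℝ))) * t := by
            gcongr
    · intro h _
      exact Nat.one_le_pow _ _ (by omega)
    · intro h _
      simp

end Vale.Agent.P054.T3.H854
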