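import Vale.Agent.P054.T3.H461.MC1
import Vale.Agent.P054.T3.H854.EndZ
import Vale.Agent.P054.T3.H517.SeamVMain

set_option autoImplicit false
set_option linter.all false

/-!
# P054 / T3: `MainIneqZ n` for `n ≥ 3` from `main3`

`StartOut` is what START and the planar block have to give for one set `P`; `StartPS n` is the
statement for all `P`.  `mainIneqZ_of_start : StartPS n → MainIneqZ n`, `n ≥ 3`.
-/

namespace Vale.Agent.P054.T3.H854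

open Finset
open Vale.Agent.P054I Vale.Agent.P054K
open Vale.Agent.P054.T2 Vale.Agent.P054.T2.SecC
open Vale.Agent.P054.T2.H307 (Ed)
open Vale.Agent.P054.T2.H686 (Qf E dists Ez Gm zt zt_injective)
open Vale.Agent.P054.T2.H455 (Sep)
open Vale.Agent.P054.T2.H84 (Sg)
open Vale.Agent.P054.T3.H533 (MuK)
open Vale.Agent.P054.T3.H637 (FlatQ flatQ)
open Vale.Agent.P054.T3.H461 (PSHyp SideN ThirdN CC0 CC2 main3)

/-- **the output of START and of the planar block** for one set `P` (`t` distances, about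
`K t ^ ((n + 1) / 2)` points): the vertices `S`, `|S| = z |P|²`, the edges `E₀`, the constant `τ` of
the contagion, and the numbers `M`, `Ψ`, `Rb` of the planar block -/
structure StartOut (n : ℕ) (P : Finset (E n)) (β L c C₂ Λ : ℕ) (ε₁ K : ℝ) (t : ℕ) where
  B : E n ≃ₗᵢ[ℝ] E n
  k : ℕ
  S : Finset (E n × E n)
  E₀ : Finset (Ed n ℝ)
  τ : ℕ
  ell : ℕ
  z : ℝ
  M : ℕ → ℕ
  Ψ : ℕ → ℕ
  Rb : ℕ → ℕ
  hB : Gm P B
  hS : S ⊆ P ×ˢ P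
  hne : E₀.Nonempty
  hE₀ : E₀ ⊆ Ez P B k
  fst_mem : ∀ e ∈ E₀, ∃ s ∈ S, zt B s = e.1
  snd_mem : ∀ e ∈ E₀, ∃ s ∈ S, zt B s = e.2
  mu₁ : MuK E₀ 1
  mu₂ : MuK (swp E₀) 1
  card_S : (S.card : ℝ) = z * (P.card : ℝ) ^ 2
  z_ge : (t : ℝ) ^ (-ε₁) ≤ z
  start : S.card * S.card ≤ τ * E₀.card
  τ_le : (τ : ℝ) ≤ Λ * (t * z ^ (3 / 5 : ℝ))
  ell_le : (β ^ L) ^ ell ≤ τ
  le_ell : τ ≤ (β ^ L) ^ (ell + 1)
  ps : PSHyp n P B E₀ τ ell (fun h => β ^ (CC0 n * h + CC2 n L)) M Ψ Rb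
  M_le : ∀ h ≤ ell, (M h : ℝ) ≤ (β : ℝ) ^ (c * h + C₂) * (K * z ^ (-(1 / 15 : ℝ))) * t
  Ψ_le : ∀ h ≤ ell, Ψ h + 1 ≤ β ^ (c * h + C₂)
  R_le : ∀ h ≤ ell, 4 * (Rb h * β ^ (CC0 n * h + CC2 n L)) ≤ E₀.card

/-- **START and the planar block** in dimension `n + 1` -/
def StartPS (n : ℕ) : Prop :=
  ∃ Λ c : ℕ, 1 ≤ Λ ∧ ∃ ε₁ : ℝ, ε₁ ≤ 1 / 8 ∧ ∃ L₀ : ℕ, ∀ L : ℕ, L₀ ≤ L → ∃ β₁ : ℕ, ∀ β : ℕ, β₁ ≤ β →
    ∃ C₂ : ℕ, ∀ K : ℝ, 1 ≤ K → ∃ t₀ : ℕ, ∀ t : ℕ, t₀ ≤ t → 1 ≤ t → ∀ P : Finset (E n),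
      (dists P).card ≤ t → K * (t : ℝ) ^ (((n + 1 : ℕ) : ℝ) / 2) ≤ P.card →
      (P.card : ℝ) ≤ 2 * (K * (t : ℝ) ^ (((n + 1 : ℕ) : ℝ) / 2)) →
      Nonempty (StartOut n P β L c C₂ Λ ε₁ K t)

/-- monotonicity of `FlatQ` -/
theorem FlatQ.mono {n : ℕ} {P : Finset (E n)} {Gf Gf' : ℕ} (h : FlatQ n P Gf) (hG : Gf ≤ Gf') :
    FlatQ n P Gf' := fun B V z₀ s hV cl h1 h2 h3 => (h B V z₀ s hV cl h1 h2 h3).trans hG

section conv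

variable {n : ℕ}

/-- from `SideN` to `SideOK` -/
theorem sideOK_of_sideN {Θ g t τ N p Gf X : ℕ} {G : ℕ → ℕ} {K z Θ' N' : ℝ}
    (h : SideN n Θ g t τ N p Gf G X) (hn : 3 ≤ n) (hK : 1 ≤ K) (hz : 0 < z) (ht : 1 ≤ t)
    (hN : (N : ℝ) ≤ N') {C₃ : ℝ} (hC₃ : 1 ≤ C₃)
    (hGf : (Gf : ℝ) ≤ C₃ * (K * (t : ℝ) ^ ((n : ℝ) - 1 / 4)))
    (hG : ∀ σ < n, (G σ : ℝ) ≤ Θ' * (K * z ^ (-(1 / 15 : ℝ))) * (t : ℝ) ^ σ)
    (hp : (p : ℝ) ≤ 2 * K * (t : ℝ) ^ n) (hΘ : 3 * C₃ * Θ ≤ Θ') :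
    SideOK n Θ' g K t z τ N' X := by
  have ht0 : (0 : ℝ) < t := by exact_mod_cast ht
  have hK0 : 0 < K := by linarith
  have hΘ0 : (0 : ℝ) ≤ Θ := Nat.cast_nonneg _
  have hΘ1 : (Θ : ℝ) ≤ Θ' := by nlinarith
  have hCΘ : C₃ * Θ ≤ Θ' := by nlinarith
  have h3Θ : 3 * (Θ : ℝ) ≤ Θ' := by nlinarith
  have hN0 : (0 : ℝ) ≤ N := Nat.cast_nonneg _
  rcases h with h | ⟨σ, hσ, S, D, h1, h2, h3, h4⟩
  · left
    have h' : (X : ℝ) ≤ Θ * (N * Gf) := by exact_mod_cast h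
    calc (X : ℝ) ≤ Θ * (N * Gf) := h'
      _ ≤ Θ * (N' * (C₃ * (K * (t : ℝ) ^ ((n : ℝ) - 1 / 4)))) := by
          gcongr
          exact hN0.trans hN
      _ = (C₃ * Θ) * (N' * (K * (t : ℝ) ^ ((n : ℝ) - 1 / 4))) := by ring
      _ ≤ Θ' * (N' * (K * (t : ℝ) ^ ((n : ℝ) - 1 / 4))) := by
          have : 0 ≤ N' := hN0.trans hN
          gcongr
  · right
    refine ⟨σ, hσ, S, D, G σ, Nat.cast_nonneg _, Nat.cast_nonneg _, ?_, ?_, ?_, hG σ hσ, ?_⟩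
    · have h' : (X : ℝ) ≤ Θ * (S * D * ((t : ℝ) ^ σ + G σ)) := by exact_mod_cast h1
      refine h'.trans ?_
      gcongr
    · have : (S : ℝ) ≤ N := by exact_mod_cast h2
      exact this.trans hN
    · have h' : (D : ℝ) ≤ Θ * (τ : ℝ) ^ (n - σ) := by exact_mod_cast h3
      refine h'.trans ?_
      gcongr
    · rcases h4 with h4 | h4
      · left
        have h' : (D : ℝ) * g ≤ Θ * (τ : ℝ) ^ (n - σ) := by exact_mod_cast h4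
        refine h'.trans ?_
        gcongr
      · right
        have h' : (S : ℝ) * g ≤ Θ * (τ * (t : ℝ) ^ n + τ * p) := by exact_mod_cast h4
        calc (S : ℝ) * g ≤ Θ * (τ * (t : ℝ) ^ n + τ * p) := h'
          _ ≤ Θ * (τ * (t : ℝ) ^ n + τ * (2 * K * (t : ℝ) ^ n)) := by gcongr
          _ = Θ * (1 + 2 * K) * (τ * (t : ℝ) ^ n) := by ring
          _ ≤ Θ * (3 * K) * (τ * (t : ℝ) ^ n) := by gcongr; linarith
          _ = (3 * Θ) * (K * (τ * (t : ℝ) ^ n)) := by ring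
          _ ≤ Θ' * (K * (τ * (t : ℝ) ^ n)) := by gcongr

/-- from `ThirdN` to `ThirdOK` -/
theorem thirdOK_of_thirdN {Θ g t τ X : ℕ} {Θ' : ℝ} (h : ThirdN n Θ g t τ X) (hΘ : (Θ : ℝ) ≤ Θ') :
    ThirdOK n Θ' g t τ X := by
  rcases h with h | ⟨m, h1, h2, h3⟩
  · left
    rw [h, Nat.cast_zero]
  · right
    refine ⟨m, h1, h2, ?_⟩
    have h' : (X : ℝ) * g ≤ Θ * ((τ : ℝ) ^ m * (t : ℝ) ^ (2 * n + 1 - m)) := by exact_mod_cast h3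
    refine h'.trans ?_
    gcongr

theorem exp_aux (a b c d h : ℕ) : 1 + (a * h + b) + (c * h + d) ≤ (a + c) * h + (b + d + 2) := by
  rw [add_mul]; omega

theorem exp_aux₂ (a b c d h : ℕ) : c * h + d ≤ (a + c) * h + (b + d + 2) := by
  rw [add_mul]; omega

theorem exp_aux₃ (a b c d h : ℕ) : a * h + b ≤ (a + c) * h + (b + d + 2) := by
  rw [add_mul]; omega

/-- all conversions for one set; `a0 = CC0 n`, `a2 = CC2 n L`, `s = |S|`, `e₀ = |E₀|`, `e₂ = |E₂|` -/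
theorem mainOutZ_of {β L a0 a2 c C₂ Λ τ ell t s e₀ e₂ p Gf Rb Ψ M h X₁ X₂ X₃ : ℕ} {G : ℕ → ℕ}
    {ε₁ K z C C₃ : ℝ} (hn : 3 ≤ n) (hβ : 2 ≤ β) (hΛ : Λ ≤ β) (hCβ : C ≤ β) (hC0 : 0 ≤ C)
    (hC₃ : 1 ≤ C₃) (hC₃β : 3 * C₃ ≤ β) (hK : 1 ≤ K) (ht : 1 ≤ t) (hp0 : 0 < p)
    (hsp : s ≤ p * p) (hs : (s : ℝ) = z * (p : ℝ) ^ 2) (hz : (t : ℝ) ^ (-ε₁) ≤ z)
    (hτ : (τ : ℝ) ≤ Λ * (t * z ^ (3 / 5 : ℝ))) (hell : (β ^ L) ^ ell ≤ τ) (hh : h ≤ ell)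
    (hst : s * s ≤ τ * e₀) (he : e₀ ≤ β ^ (a0 * h + a2) * e₂)
    (hcnt : e₂ ≤ X₁ + X₂ + X₃ + 2 * Rb) (hR : 4 * (Rb * β ^ (a0 * h + a2)) ≤ e₀)
    (hΨ : Ψ + 1 ≤ β ^ (c * h + C₂))
    (hpn : (p : ℝ) ≤ 2 * K * (t : ℝ) ^ n)
    (hGf : (Gf : ℝ) ≤ C₃ * (K * (t : ℝ) ^ ((n : ℝ) - 1 / 4)))
    (hG0 : G 0 = 1) (hG1 : G 1 = M) (hG2 : ∀ σ, 2 ≤ σ → (G σ : ℝ) ≤ C * K * (t : ℝ) ^ σ)
    (hM : (M : ℝ) ≤ (β : ℝ) ^ (c * h + C₂) * (K * z ^ (-(1 / 15 : ℝ))) * t)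
    (hS1 : SideN n (β ^ (a0 * h + a2) * (Ψ + 1)) ((β ^ L) ^ (h / 6)) t τ s p Gf G X₁)
    (hS2 : SideN n (β ^ (a0 * h + a2) * (Ψ + 1)) ((β ^ L) ^ (h / 6)) t τ s p Gf G X₂)
    (hT : ThirdN n (β ^ (a0 * h + a2)) ((β ^ L) ^ (h / 6)) t τ X₃) :
    Nonempty (MainOutZ n β L (a0 + c) (a2 + C₂ + 2) ε₁ K t ((p : ℝ) ^ 2)) := by
  have htr : (1 : ℝ) ≤ t := by exact_mod_cast ht
  have ht0 : (0 : ℝ) < t := by linarith
  have hz0 : 0 < z := lt_of_lt_of_le (Real.rpow_pos_of_pos ht0 _) hz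
  have hβr : (1 : ℝ) ≤ β := by exact_mod_cast (by omega : 1 ≤ β)
  have hK0 : 0 < K := by linarith
  have hP0 : (0 : ℝ) < p := by exact_mod_cast hp0
  have hz1 : z ≤ 1 := by
    have h1 : (s : ℝ) ≤ (p : ℝ) ^ 2 := by
      calc (s : ℝ) ≤ (p : ℝ) * p := by exact_mod_cast hsp
        _ = _ := by ring
    rw [hs] at h1
    have h2 : 0 < (p : ℝ) ^ 2 := by positivity
    exact le_of_mul_le_mul_right (by linarith) h2
  have hz15 : 1 ≤ z ^ (-(1 / 15 : ℝ)) :=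
    Real.one_le_rpow_of_pos_of_le_one_of_nonpos hz0 hz1 (by norm_num)
  have hz35 : z ^ (3 / 5 : ℝ) ≤ 1 := Real.rpow_le_one hz0.le hz1 (by norm_num)
  have hτt : τ ≤ Λ * t := by
    have : (τ : ℝ) ≤ Λ * t := by
      calc (τ : ℝ) ≤ Λ * (t * z ^ (3 / 5 : ℝ)) := hτ
        _ ≤ Λ * (t * 1) := by gcongr
        _ = Λ * t := by ring
    exact_mod_cast this
  have hτ1 : 1 ≤ τ := le_trans (Nat.one_le_pow _ _ (Nat.one_le_pow _ _ (by omega))) hell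
  obtain ⟨Θ, hΘdef⟩ : ∃ Θ : ℕ, Θ = β ^ (a0 * h + a2) := ⟨_, rfl⟩
  rw [← hΘdef] at he hR hS1 hS2 hT
  obtain ⟨Θ', hΘ'def⟩ : ∃ Θ' : ℝ, Θ' = (β : ℝ) ^ ((a0 + c) * h + (a2 + C₂ + 2)) := ⟨_, rfl⟩
  have hΘ'1 : 1 ≤ Θ' := by rw [hΘ'def]; exact one_le_pow₀ hβr
  have hΘ0 : 0 < Θ := by rw [hΘdef]; exact Nat.pow_pos (by omega)
  -- `β Θ (Ψ + 1) ≤ Θ'`
  have hβΘ : (β : ℝ) * ((Θ * (Ψ + 1) : ℕ) : ℝ) ≤ Θ' := by
    have h1 : β * (Θ * (Ψ + 1)) ≤ β ^ ((a0 + c) * h + (a2 + C₂ + 2)) := by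
      calc β * (Θ * (Ψ + 1)) ≤ β * (Θ * β ^ (c * h + C₂)) :=
            Nat.mul_le_mul_left _ (Nat.mul_le_mul_left _ hΨ)
        _ = β ^ (1 + (a0 * h + a2) + (c * h + C₂)) := by
            rw [hΘdef, pow_add β (1 + (a0 * h + a2)), pow_add β 1, pow_one, mul_assoc]
        _ ≤ _ := Nat.pow_le_pow_right (by omega) (exp_aux _ _ _ _ _)
    rw [hΘ'def]
    exact_mod_cast h1
  have hΘle : (Θ : ℝ) ≤ Θ' := by
    rw [hΘdef, hΘ'def, Nat.cast_pow]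
    exact pow_le_pow_right₀ hβr (exp_aux₃ _ _ _ _ _)
  have hcΘ : (β : ℝ) ^ (c * h + C₂) ≤ Θ' := by
    rw [hΘ'def]
    exact pow_le_pow_right₀ hβr (exp_aux₂ _ _ _ _ _)
  have hβΘ' : (β : ℝ) ≤ Θ' := by
    rw [hΘ'def]
    calc (β : ℝ) = (β : ℝ) ^ 1 := (pow_one _).symm
      _ ≤ _ := pow_le_pow_right₀ hβr (by omega)
  have hg : (((β ^ L) ^ (h / 6) : ℕ) : ℝ) = (β : ℝ) ^ (L * (h / 6)) := by
    rw [← pow_mul, Nat.cast_pow]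
  have hY1 : 1 ≤ K * z ^ (-(1 / 15 : ℝ)) := by nlinarith
  have hG : ∀ σ < n, ((G σ : ℕ) : ℝ) ≤ Θ' * (K * z ^ (-(1 / 15 : ℝ))) * (t : ℝ) ^ σ := by
    intro σ hσ
    rcases Nat.lt_or_ge σ 2 with h2 | h2
    · rcases Nat.eq_zero_or_pos σ with h0 | h0
      · rw [h0, hG0, pow_zero, mul_one, Nat.cast_one]
        nlinarith
      · have h1 : σ = 1 := by omega
        rw [h1, hG1, pow_one]
        refine hM.trans ?_
        gcongr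
    · calc ((G σ : ℕ) : ℝ) ≤ C * K * (t : ℝ) ^ σ := hG2 σ h2
        _ ≤ Θ' * (K * z ^ (-(1 / 15 : ℝ))) * (t : ℝ) ^ σ := by
            have h3 : C * K ≤ Θ' * (K * z ^ (-(1 / 15 : ℝ))) := by
              calc C * K = C * (K * 1) := by ring
                _ ≤ Θ' * (K * z ^ (-(1 / 15 : ℝ))) := by
                    gcongr
                    exact hCβ.trans hβΘ'
            gcongr
  have hN' : (s : ℝ) ≤ z * (p : ℝ) ^ 2 := hs.le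
  have hside : ∀ X : ℕ, SideN n (Θ * (Ψ + 1)) ((β ^ L) ^ (h / 6)) t τ s p Gf G X →
      SideOK n Θ' ((β : ℝ) ^ (L * (h / 6))) K t z τ (z * (p : ℝ) ^ 2) X := by
    intro X hX
    rw [← hg]
    refine sideOK_of_sideN hX hn hK hz0 ht hN' hC₃ hGf hG hpn ?_
    calc 3 * C₃ * ((Θ * (Ψ + 1) : ℕ) : ℝ) ≤ (β : ℝ) * ((Θ * (Ψ + 1) : ℕ) : ℝ) := by
          gcongr
      _ ≤ Θ' := hβΘ
  have hthird : ThirdOK n Θ' ((β : ℝ) ^ (L * (h / 6))) t τ X₃ := by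
    rw [← hg]; exact thirdOK_of_thirdN hT hΘle
  rw [hΘ'def] at hside hthird
  refine ⟨⟨h, z, τ, e₂, X₁, X₂, X₃, 2 * Rb, hz, hz1, by exact_mod_cast hτ1, ?_, ?_, ?_, ?_,
    ?_, hside X₁ hS1, hside X₂ hS2, hthird⟩⟩
  · -- `τ`
    rw [← hΘ'def]
    calc (τ : ℝ) ≤ Λ * (t * z ^ (3 / 5 : ℝ)) := hτ
      _ ≤ Θ' * (t * z ^ (3 / 5 : ℝ)) := by
          have : (Λ : ℝ) ≤ β := by exact_mod_cast hΛ
          gcongr
          exact this.trans hβΘ'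
  · -- the range of `h`
    have h1 : (β ^ L) ^ h ≤ τ :=
      (Nat.pow_le_pow_right (Nat.one_le_pow _ _ (by omega)) hh).trans hell
    have h2 : β ^ (L * h) ≤ β ^ (a2 + C₂ + 2) * t := by
      calc β ^ (L * h) = (β ^ L) ^ h := pow_mul _ _ _
        _ ≤ τ := h1
        _ ≤ Λ * t := hτt
        _ ≤ β * t := Nat.mul_le_mul_right _ hΛ
        _ = β ^ 1 * t := by rw [pow_one]
        _ ≤ _ := Nat.mul_le_mul_right _ (Nat.pow_le_pow_right (by omega) (by omega))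
    exact_mod_cast h2
  · -- the start
    rw [← hΘ'def]
    have h1 : ((s : ℝ)) * s ≤ τ * e₀ := by exact_mod_cast hst
    have h2 : (e₀ : ℝ) ≤ Θ * e₂ := by exact_mod_cast he
    calc (z * (p : ℝ) ^ 2) ^ 2 = (s : ℝ) * s := by rw [hs]; ring
      _ ≤ τ * e₀ := h1
      _ ≤ τ * (Θ' * e₂) := by
          gcongr
          refine h2.trans ?_
          gcongr
  · -- the count
    exact_mod_cast hcnt
  · -- absorbed edges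
    have h1 : 4 * Rb ≤ e₂ := by
      have h2 : 4 * Rb * Θ ≤ e₂ * Θ := by
        calc 4 * Rb * Θ = 4 * (Rb * Θ) := by ring
          _ ≤ e₀ := hR
          _ ≤ Θ * e₂ := he
          _ = _ := by ring
      exact Nat.le_of_mul_le_mul_right h2 hΘ0
    have h3 : (4 * Rb : ℝ) ≤ e₂ := by exact_mod_cast h1
    linarith

end conv

/-- **`MainIneqZ n` for `n ≥ 3`** from START and the planar block -/
theorem mainIneqZ_of_start {n : ℕ} (hn : 3 ≤ n) (h : StartPS n) : MainIneqZ n := by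
  classical
  obtain ⟨Λ, c, hΛ, ε₁, hε₁, L₀, h⟩ := h
  refine ⟨CC0 n + c, ε₁, hε₁, max L₀ (48 * (4 * n + 1)), fun L hL C hC => ?_⟩
  obtain ⟨β₁, h⟩ := h L ((le_max_left _ _).trans hL)
  obtain ⟨β₀, hmain⟩ := main3 n hn (L := L) ((le_max_right _ _).trans hL) 1 Λ hΛ
  obtain ⟨Cf, hCf, hflat⟩ := flatQ (n := n) (by omega) (1 / 4) (by norm_num)
  obtain ⟨β, hβ⟩ : ∃ β : ℕ, max (max β₀ β₁) (Λ + 2 + ⌈C⌉₊ + 3 * ⌈Cf + 2⌉₊) ≤ β := ⟨_, le_rfl⟩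
  have hβ0 : β₀ ≤ β := (le_max_left _ _).trans ((le_max_left _ _).trans hβ)
  have hβ1 : β₁ ≤ β := (le_max_right _ _).trans ((le_max_left _ _).trans hβ)
  have hβ2 : Λ + 2 + ⌈C⌉₊ + 3 * ⌈Cf + 2⌉₊ ≤ β := (le_max_right _ _).trans hβ
  clear hβ
  obtain ⟨C₂, h⟩ := h β hβ1
  refine ⟨β, CC2 n L + C₂ + 2, by omega, 1, fun K _ hK => ?_⟩
  obtain ⟨t₀, h⟩ := h K hK
  refine ⟨t₀, fun t ht ht1 P hP hP1 hP2 hIso => ?_⟩
  obtain ⟨O⟩ := h t ht ht1 P hP hP1 hP2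
  obtain ⟨B, k, S, E₀, τ, ell, z, M, Ψ, Rb, hB, hS, hne, hE₀, hf, hs, hm1, hm2, hcS, hz, hst, hτ,
    hell, hell', hps, hM, hΨ, hR⟩ := O
  have htr : (1 : ℝ) ≤ t := by exact_mod_cast ht1
  have ht0 : (0 : ℝ) < t := by linarith
  have hz0 : 0 < z := lt_of_lt_of_le (Real.rpow_pos_of_pos ht0 _) hz
  have hK0 : 0 < K := by linarith
  have hP0 : (0 : ℝ) < P.card := lt_of_lt_of_le (by positivity) hP1
  have hSP : S.card ≤ P.card * P.card := by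
    calc S.card ≤ (P ×ˢ P).card := Finset.card_le_card hS
      _ = _ := Finset.card_product _ _
  -- `z ≤ 1`
  have hz1 : z ≤ 1 := by
    have h1 : (S.card : ℝ) ≤ (P.card : ℝ) ^ 2 := by
      calc (S.card : ℝ) ≤ (P.card : ℝ) * P.card := by exact_mod_cast hSP
        _ = _ := by ring
    rw [hcS] at h1
    have h2 : 0 < (P.card : ℝ) ^ 2 := by positivity
    exact le_of_mul_le_mul_right (by linarith) h2
  have hz35 : z ^ (3 / 5 : ℝ) ≤ 1 := Real.rpow_le_one hz0.le hz1 (by norm_num)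
  have hτt : τ ≤ Λ * t := by
    have : (τ : ℝ) ≤ Λ * t := by
      calc (τ : ℝ) ≤ Λ * (t * z ^ (3 / 5 : ℝ)) := hτ
        _ ≤ Λ * (t * 1) := by gcongr
        _ = Λ * t := by ring
    exact_mod_cast this
  -- the vertices
  have hSScard : (S.image (zt B)).card = S.card :=
    Finset.card_image_of_injective _ (zt_injective B)
  have hsep : Sep (fun s : ZZ n => pt s) (4 * t) (S.image (zt B)) :=
    (Vale.Agent.P054.T3.H517.sep_of_dists (B := B) hP).subset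
      (Finset.image_subset_image hS)
  -- numbers
  have hpn : (P.card : ℝ) ≤ 2 * K * (t : ℝ) ^ n := by
    have h1 : (t : ℝ) ^ (((n + 1 : ℕ) : ℝ) / 2) ≤ (t : ℝ) ^ n := by
      rw [← Real.rpow_natCast]
      apply Real.rpow_le_rpow_of_exponent_le htr
      have : (3 : ℝ) ≤ n := by exact_mod_cast hn
      push_cast
      linarith
    calc (P.card : ℝ) ≤ 2 * (K * (t : ℝ) ^ (((n + 1 : ℕ) : ℝ) / 2)) := hP2
      _ ≤ 2 * (K * (t : ℝ) ^ n) := by gcongr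
      _ = _ := by ring
  have h34 : (t : ℝ) ^ (((n : ℝ) + 1) / 2 + 1 / 4) ≤ (t : ℝ) ^ ((n : ℝ) - 1 / 4) := by
    apply Real.rpow_le_rpow_of_exponent_le htr
    have : (3 : ℝ) ≤ n := by exact_mod_cast hn
    linarith
  have h35 : (t : ℝ) ^ (((n + 1 : ℕ) : ℝ) / 2) ≤ (t : ℝ) ^ ((n : ℝ) - 1 / 4) := by
    apply Real.rpow_le_rpow_of_exponent_le htr
    have : (3 : ℝ) ≤ n := by exact_mod_cast hn
    push_cast
    linarith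
  obtain ⟨Gf, hGf⟩ : ∃ Gf : ℕ, Gf = max ⌊Cf * (t : ℝ) ^ (((n : ℝ) + 1) / 2 + 1 / 4)⌋₊ P.card :=
    ⟨_, rfl⟩
  have hGf' : (Gf : ℝ) ≤ (Cf + 2) * (K * (t : ℝ) ^ ((n : ℝ) - 1 / 4)) := by
    rw [hGf, Nat.cast_max]
    have hpos : 0 < (t : ℝ) ^ ((n : ℝ) - 1 / 4) := Real.rpow_pos_of_pos ht0 _
    apply max_le
    · calc ((⌊Cf * (t : ℝ) ^ (((n : ℝ) + 1) / 2 + 1 / 4)⌋₊ : ℕ) : ℝ)
          ≤ Cf * (t : ℝ) ^ (((n : ℝ) + 1) / 2 + 1 / 4) := Nat.floor_le (by positivity)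
        _ ≤ Cf * (t : ℝ) ^ ((n : ℝ) - 1 / 4) := by gcongr
        _ = Cf * (1 * (t : ℝ) ^ ((n : ℝ) - 1 / 4)) := by ring
        _ ≤ (Cf + 2) * (K * (t : ℝ) ^ ((n : ℝ) - 1 / 4)) := by
            gcongr
            linarith
    · calc (P.card : ℝ) ≤ 2 * (K * (t : ℝ) ^ (((n + 1 : ℕ) : ℝ) / 2)) := hP2
        _ ≤ 2 * (K * (t : ℝ) ^ ((n : ℝ) - 1 / 4)) := by gcongr
        _ ≤ (Cf + 2) * (K * (t : ℝ) ^ ((n : ℝ) - 1 / 4)) := by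
            gcongr
            linarith
  have hflat' : FlatQ n P Gf :=
    FlatQ.mono (hflat t ht1 P hP) (by rw [hGf]; exact le_max_left _ _)
  have hPG : P.card ≤ Gf := by rw [hGf]; exact le_max_right _ _
  obtain ⟨Gi, hGi⟩ : ∃ Gi : ℕ → ℕ, Gi = fun σ => ⌊C * K * (t : ℝ) ^ σ⌋₊ := ⟨_, rfl⟩
  obtain ⟨Gh, hGh⟩ : ∃ Gh : ℕ → ℕ → ℕ,
      Gh = fun h σ => if σ = 0 then 1 else if σ = 1 then M h else Gi σ := ⟨_, rfl⟩
  have hGh0 : ∀ h, Gh h 0 = 1 := fun h => by rw [hGh]; simp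
  have hGh1 : ∀ h, Gh h 1 = M h := fun h => by rw [hGh]; simp
  have hGh2 : ∀ h σ, 2 ≤ σ → Gh h σ = Gi σ := fun h σ hσ => by
    rw [hGh]
    show (if σ = 0 then 1 else if σ = 1 then M h else Gi σ) = Gi σ
    rw [if_neg (by omega), if_neg (by omega)]
  have hGi2 : ∀ σ, (Gi σ : ℝ) ≤ C * K * (t : ℝ) ^ σ := fun σ => by
    rw [hGi]; exact Nat.floor_le (by positivity)
  rw [← hGi] at hIso
  have hps' : PSHyp n P B E₀ τ ell (fun h => β ^ (CC0 n * h + CC2 n L)) (fun h => Gh h 1) Ψ Rb := by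
    have : (fun h => Gh h 1) = M := funext hGh1
    rw [this]
    exact hps
  obtain ⟨h', hh', E₂, hE₂, hE₂n, hE₂c, X₁, X₂, X₃, hcnt, hS1, hS2, hT⟩ :=
    hmain β hβ0 τ ell t hell hell' hτt ht1 P B k hB (S.image (zt B)) (S.image (zt B)) E₀ hne hE₀
      hsep hsep
      (fun e he => by
        obtain ⟨s, hs, h1⟩ := hf e he
        rw [← h1]
        exact Finset.mem_image_of_mem _ hs)
      (fun e he => by
        obtain ⟨s, hs', h1⟩ := hs e he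
        rw [← h1]
        exact Finset.mem_image_of_mem _ hs')
      (by rw [hSScard, one_mul]; exact hst) 1 Gf Gi Gh Ψ Rb hm1 hm2 hIso hflat' hPG
      (fun h σ hσ => (hGh2 h σ hσ).ge)
      (fun h => (hGh0 h).ge) hps'
  rw [hSScard] at hS1 hS2
  have hC3 : 3 * (Cf + 2) ≤ β := by
    have h1 : Cf + 2 ≤ ⌈Cf + 2⌉₊ := Nat.le_ceil _
    have h2 : (3 : ℝ) * ((⌈Cf + 2⌉₊ : ℕ) : ℝ) ≤ β := by
      exact_mod_cast (by omega : 3 * ⌈Cf + 2⌉₊ ≤ β)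
    linarith
  have hCβ : C ≤ β := by
    have h1 : C ≤ ⌈C⌉₊ := Nat.le_ceil _
    have h2 : ((⌈C⌉₊ : ℕ) : ℝ) ≤ β := by exact_mod_cast (by omega : ⌈C⌉₊ ≤ β)
    linarith
  exact mainOutZ_of hn (by omega) (by omega) hCβ (by linarith) (C₃ := Cf + 2) (by linarith) hC3 hK
    ht1 (by exact_mod_cast hP0) hSP hcS hz hτ hell hh' hst hE₂c hcnt (hR h' hh') (hΨ h' hh') hpn hGf'
    (hGh0 h') (hGh1 h') (fun σ hσ => by rw [hGh2 h' σ hσ]; exact hGi2 σ) (hM h' hh') hS1 hS2 hT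

end Vale.Agent.P054.T3.H854
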