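import Vale.Agent.P054.T2.H686.Top
import Vale.Agent.P054.T2.H606.Grid

set_option autoImplicit false
set_option linter.all false

/-!
# P054 / T3: the lossless bound, target statements

`LBd d`: every set in `ℝ^d` with at most `t` distances has at most `C t^(d/2)` points.
-/

namespace Vale.Agent.P054.T3.H854

open Filter Topology
open Vale.Agent.P054I Vale.Agent.P054K
open Vale.Agent.P054.T2.H686 (BB E dists DC_iff coe_dists dists_mono)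

/-- **the lossless bound in dimension `d`** -/
def LBd (d : ℕ) : Prop := ∃ C : ℝ, 0 < C ∧ ∀ t : ℕ, 1 ≤ t → BB d t (C * (t : ℝ) ^ ((d : ℝ) / 2))

/-- `g d n`: the least number of distinct distances determined by `n` points of `ℝ^d` -/
noncomputable def g (d n : ℕ) : ℕ :=
  sInf {k : ℕ | ∃ P : Finset (EuclideanSpace ℝ (Fin d)), P.card = n ∧
    {r : ℝ | ∃ p ∈ P, ∃ q ∈ P, p ≠ q ∧ r = dist p q}.ncard = k}

theorem g_eq (d n : ℕ) : g d n = Vale.Agent.P054.T2.H606.g d n := rfl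

/-- two points have a distance -/
theorem one_le_ncard {d : ℕ} (P : Finset (EuclideanSpace ℝ (Fin d))) (h : 2 ≤ P.card) :
    1 ≤ {r : ℝ | ∃ p ∈ P, ∃ q ∈ P, p ≠ q ∧ r = dist p q}.ncard := by
  classical
  have hfin : {r : ℝ | ∃ p ∈ P, ∃ q ∈ P, p ≠ q ∧ r = dist p q}.Finite :=
    Vale.Agent.P054.T2.H606.DD_finite P
  obtain ⟨p, hp, q, hq, hne⟩ := Finset.one_lt_card.1 (show 1 < P.card by omega)
  have : (dist p q) ∈ {r : ℝ | ∃ p ∈ P, ∃ q ∈ P, p ≠ q ∧ r = dist p q} := ⟨p, hp, q, hq, hne, rfl⟩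
  exact (Set.ncard_pos hfin).2 ⟨_, this⟩

/-- the bound for every set of points -/
theorem pts_of_LBd {d : ℕ} (hd : 1 ≤ d) (h : LBd d) :
    ∃ c : ℝ, 0 < c ∧ ∀ P : Finset (EuclideanSpace ℝ (Fin d)), 2 ≤ P.card →
      c * (P.card : ℝ) ^ (2 / (d : ℝ)) ≤
        ({r : ℝ | ∃ p ∈ P, ∃ q ∈ P, p ≠ q ∧ r = dist p q}.ncard : ℝ) := by
  obtain ⟨C, hC, h1⟩ := h
  have hd0 : (0 : ℝ) < d := by exact_mod_cast hd
  refine ⟨(C⁻¹) ^ (2 / (d : ℝ)), by positivity, fun P hP => ?_⟩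
  set t := {r : ℝ | ∃ p ∈ P, ∃ q ∈ P, p ≠ q ∧ r = dist p q}.ncard with ht
  have ht1 : 1 ≤ t := one_le_ncard P hP
  have ht0 : (0 : ℝ) < t := by exact_mod_cast ht1
  have h2 : (P.card : ℝ) ≤ C * (t : ℝ) ^ ((d : ℝ) / 2) := h1 t ht1 P le_rfl
  have h3 : C⁻¹ * (P.card : ℝ) ≤ (t : ℝ) ^ ((d : ℝ) / 2) := by
    rw [inv_mul_le_iff₀ hC]
    exact h2
  have h4 : (C⁻¹ * (P.card : ℝ)) ^ (2 / (d : ℝ)) ≤ ((t : ℝ) ^ ((d : ℝ) / 2)) ^ (2 / (d : ℝ)) :=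
    Real.rpow_le_rpow (by positivity) h3 (by positivity)
  rw [Real.mul_rpow (by positivity) (by positivity), ← Real.rpow_mul ht0.le,
    show (d : ℝ) / 2 * (2 / (d : ℝ)) = 1 by field_simp, Real.rpow_one] at h4
  exact h4

/-- the lower bound for `g` -/
theorem lower_of_LBd {d : ℕ} (hd : 1 ≤ d) (h : LBd d) :
    ∃ c : ℝ, 0 < c ∧ ∀ n : ℕ, 2 ≤ n → c * (n : ℝ) ^ (2 / (d : ℝ)) ≤ ((g d n : ℕ) : ℝ) := by
  obtain ⟨c, hc, h1⟩ := pts_of_LBd hd h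
  refine ⟨c, hc, fun n hn => ?_⟩
  have hne : {k : ℕ | ∃ P : Finset (EuclideanSpace ℝ (Fin d)), P.card = n ∧
      {r : ℝ | ∃ p ∈ P, ∃ q ∈ P, p ≠ q ∧ r = dist p q}.ncard = k}.Nonempty := by
    have : Infinite (EuclideanSpace ℝ (Fin d)) := by
      have : Nonempty (Fin d) := ⟨⟨0, by omega⟩⟩
      exact inferInstance
    obtain ⟨P, hP⟩ := Infinite.exists_subset_card_eq (EuclideanSpace ℝ (Fin d)) n
    exact ⟨_, P, hP, rfl⟩
  obtain ⟨P, hPn, hPk⟩ := Nat.sInf_mem hne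
  have hgk : g d n = {r : ℝ | ∃ p ∈ P, ∃ q ∈ P, p ≠ q ∧ r = dist p q}.ncard := by
    unfold g
    rw [hPk]
  rw [hgk, ← hPn]
  exact h1 P (by omega)

/-- **the text of the hand-in in dimension `d`**: every set of `n ≥ 2` points has at least
`c n^(2/d)` distances, and `g_d(n) = Θ(n^(2/d))` -/
def Txt (g : ℕ → ℕ → ℕ) (d : ℕ) : Prop :=
  (∃ c : ℝ, 0 < c ∧ ∀ P : Finset (EuclideanSpace ℝ (Fin d)), 2 ≤ P.card →
    c * (P.card : ℝ) ^ (2 / (d : ℝ)) ≤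
      ({r : ℝ | ∃ p ∈ P, ∃ q ∈ P, p ≠ q ∧ r = dist p q}.ncard : ℝ)) ∧
  (∃ c C : ℝ, 0 < c ∧ 0 < C ∧ ∀ n : ℕ, 2 ≤ n →
    c * (n : ℝ) ^ (2 / (d : ℝ)) ≤ ((g d n : ℕ) : ℝ) ∧
    ((g d n : ℕ) : ℝ) ≤ C * (n : ℝ) ^ (2 / (d : ℝ))) ∧
  (fun n : ℕ => ((g d n : ℕ) : ℝ)) =Θ[atTop] fun n : ℕ => (n : ℝ) ^ (2 / (d : ℝ))

theorem txt_of_LBd {d : ℕ} (hd : 1 ≤ d) (h : LBd d) : Txt g d := by
  obtain ⟨c, hc, h1⟩ := lower_of_LBd hd h
  have hd0 : (0 : ℝ) < d := by exact_mod_cast hd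
  have h2 : ∀ n : ℕ, 2 ≤ n → ((g d n : ℕ) : ℝ) ≤ d * (n : ℝ) ^ (2 / (d : ℝ)) := fun n hn =>
    Vale.Agent.P054.T2.H606.g_le d n hd (by omega)
  refine ⟨pts_of_LBd hd h, ⟨c, d, hc, hd0, fun n hn => ⟨h1 n hn, h2 n hn⟩⟩, ?_, ?_⟩
  · refine Asymptotics.IsBigO.of_bound (d : ℝ) ?_
    filter_upwards [eventually_ge_atTop 2] with n hn
    rw [Real.norm_of_nonneg (by positivity), Real.norm_of_nonneg (by positivity)]
    exact h2 n hn
  · refine Asymptotics.IsBigO.of_bound (c⁻¹) ?_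
    filter_upwards [eventually_ge_atTop 2] with n hn
    rw [Real.norm_of_nonneg (by positivity), Real.norm_of_nonneg (by positivity)]
    rw [← div_eq_inv_mul, le_div_iff₀ hc, mul_comm]
    exact h1 n hn

/-- the contradiction form: it is enough to treat sets with `|P| = ⌈K t^(d/2)⌉` points, `K` a large
constant -/
theorem lbd_of_contra {n : ℕ} (h : ∃ K : ℝ, 1 ≤ K ∧ ∀ t : ℕ, 1 ≤ t → ∀ P : Finset (E n),
      (dists P).card ≤ t → K * (t : ℝ) ^ (((n + 1 : ℕ) : ℝ) / 2) ≤ P.card →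
      (P.card : ℝ) ≤ 2 * (K * (t : ℝ) ^ (((n + 1 : ℕ) : ℝ) / 2)) → False) : LBd (n + 1) := by
  obtain ⟨K, hK, h⟩ := h
  refine ⟨K, by linarith, fun t ht S hS => ?_⟩
  by_contra hcon
  push Not at hcon
  have ht1 : (1 : ℝ) ≤ t := by exact_mod_cast ht
  set x : ℝ := K * (t : ℝ) ^ (((n + 1 : ℕ) : ℝ) / 2) with hx
  have hx1 : 1 ≤ x := by
    have : (1 : ℝ) ≤ (t : ℝ) ^ (((n + 1 : ℕ) : ℝ) / 2) := Real.one_le_rpow ht1 (by positivity)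
    nlinarith
  have h1 : ⌈x⌉₊ ≤ S.card := Nat.ceil_le.2 hcon.le
  obtain ⟨P', hP', hP'c⟩ := Finset.exists_subset_card_eq h1
  have hd : (dists P').card ≤ t := by
    refine (Finset.card_le_card (dists_mono hP')).trans ?_
    rwa [← coe_dists, Set.ncard_coe_finset] at hS
  refine h t ht P' hd ?_ ?_
  · rw [hP'c]; exact Nat.le_ceil _
  · rw [hP'c]
    have := Nat.ceil_lt_add_one (show 0 ≤ x by linarith)
    linarith

end Vale.Agent.P054.T3.H854
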